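import Mathlib

/-!
# P084: upper Clarkson inequality together with asymptotic p-additivity

If a real normed space satisfies Clarkson's inequality with exponent `p` and has, against every
finite set, almost p-orthogonal unit vectors, then every surjective isometry of its unit sphere
onto the unit sphere of a normed space extends linearly.
-/

open Metric Filter Topology

namespace Vale.Agent.P084.Asymp

/-- Strict convexity from the two point inequality. -/
theorem eq_of_norm_add_eq_two {X : Type*} [NormedAddCommGroup X] [NormedSpace ℝ X]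
    {p : ℝ}
    (hC : ∀ u v : X, ‖u + v‖ ^ p + ‖u - v‖ ^ p ≤ (2 : ℝ) ^ (p - 1) * (‖u‖ ^ p + ‖v‖ ^ p))
    {a c : X} (ha : ‖a‖ = 1) (hc : ‖c‖ = 1) (h : ‖a + c‖ = 2) : a = c := by
  have h1 := hC a c
  rw [ha, hc, h, Real.one_rpow] at h1
  have h2 : (2 : ℝ) ^ (p - 1) * (1 + 1) = (2 : ℝ) ^ p := by
    rw [Real.rpow_sub two_pos, Real.rpow_one]; ring
  by_contra hne
  have h3 : 0 < ‖a - c‖ := by
    rw [norm_pos_iff]; exact sub_ne_zero.mpr hne
  have h4 : 0 < ‖a - c‖ ^ p := Real.rpow_pos_of_pos h3 p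
  linarith

section

variable {X : Type*} [NormedAddCommGroup X] [NormedSpace ℝ X]
variable {Y : Type*} [NormedAddCommGroup Y] [NormedSpace ℝ Y]

omit [NormedSpace ℝ X] in
theorem norm_coe_sphere (x : sphere (0 : X) 1) : ‖(x : X)‖ = 1 := mem_sphere_zero_iff_norm.mp x.2

/-- The point of the sphere opposite to `x`. -/
def opp (x : sphere (0 : X) 1) : sphere (0 : X) 1 :=
  ⟨-(x : X), by simp⟩

omit [NormedSpace ℝ X] in
theorem coe_opp (x : sphere (0 : X) 1) : (opp x : X) = -(x : X) := rfl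

omit [NormedSpace ℝ X] [NormedSpace ℝ Y] in
theorem norm_map_sub {f : sphere (0 : X) 1 → sphere (0 : Y) 1} (hf : Isometry f)
    (a b : sphere (0 : X) 1) : ‖(f a : Y) - f b‖ = ‖(a : X) - b‖ := by
  rw [← dist_eq_norm, ← dist_eq_norm]
  exact hf.dist_eq a b

theorem map_opp
    (hstrict : ∀ u v : X, ‖u‖ = 1 → ‖v‖ = 1 → ‖u + v‖ = 2 → u = v)
    {f : sphere (0 : X) 1 → sphere (0 : Y) 1} (hf : Isometry f) (hs : Function.Surjective f)
    (a : sphere (0 : X) 1) : (f (opp a) : Y) = -(f a : Y) := by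
  obtain ⟨w, hw⟩ := hs (opp (f a))
  have h1 : ‖(a : X) - w‖ = 2 := by
    rw [← norm_map_sub hf, hw, coe_opp, sub_neg_eq_add, ← two_smul ℝ, norm_smul,
      norm_coe_sphere]
    norm_num
  have h2 : (a : X) = -(w : X) := by
    refine hstrict _ _ (norm_coe_sphere a) ?_ ?_
    · rw [norm_neg, norm_coe_sphere]
    · rwa [← sub_eq_add_neg]
  have h3 : w = opp a := by
    apply Subtype.ext
    rw [coe_opp, h2, neg_neg]
  rw [← h3, hw, coe_opp]

theorem pair_unit {p : ℝ} (hp : 0 < p)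
    (hC : ∀ u v : X, ‖u + v‖ ^ p + ‖u - v‖ ^ p ≤ (2 : ℝ) ^ (p - 1) * (‖u‖ ^ p + ‖v‖ ^ p))
    {f : sphere (0 : X) 1 → sphere (0 : Y) 1} (hf : Isometry f) (hs : Function.Surjective f)
    (y y' : Y) (hy : ‖y‖ = 1) (hy' : ‖y'‖ = 1) :
    ‖y + y'‖ ^ p + ‖y - y'‖ ^ p ≤ (2 : ℝ) ^ p := by
  obtain ⟨a, ha⟩ := hs ⟨y, by simpa using hy⟩
  obtain ⟨c, hc⟩ := hs ⟨y', by simpa using hy'⟩
  have ha' : (f a : Y) = y := by rw [ha]
  have hc' : (f c : Y) = y' := by rw [hc]
  have h1 : ‖y - y'‖ = ‖(a : X) - c‖ := by rw [← ha', ← hc', norm_map_sub hf]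
  have h2 : ‖y + y'‖ = ‖(a : X) + c‖ := by
    have := norm_map_sub hf a (opp c)
    rw [map_opp (fun _ _ ha hb => eq_of_norm_add_eq_two hC ha hb) hf hs, coe_opp, sub_neg_eq_add, sub_neg_eq_add] at this
    rw [← ha', ← hc', this]
  have h3 := hC a c
  rw [norm_coe_sphere, norm_coe_sphere, Real.one_rpow] at h3
  have h4 : (2 : ℝ) ^ (p - 1) * (1 + 1) = (2 : ℝ) ^ p := by
    rw [Real.rpow_sub two_pos, Real.rpow_one]; ring
  rw [h1, h2]
  linarith

theorem pair_scaled {p : ℝ} (hp : 0 < p)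
    (hY : ∀ y y' : Y, ‖y‖ = 1 → ‖y'‖ = 1 → ‖y + y'‖ ^ p + ‖y - y'‖ ^ p ≤ (2 : ℝ) ^ p)
    (A B : Y) (h : ‖A‖ = ‖B‖) :
    ‖A + B‖ ^ p + ‖A - B‖ ^ p ≤ (2 * ‖A‖) ^ p := by
  rcases eq_or_ne ‖A‖ 0 with h0 | h0
  · have hA : A = 0 := norm_eq_zero.mp h0
    have hB : B = 0 := norm_eq_zero.mp (h ▸ h0)
    simp [hA, hB, Real.zero_rpow hp.ne']
  · have hd : 0 < ‖A‖ := lt_of_le_of_ne (norm_nonneg A) (Ne.symm h0)
    set d := ‖A‖ with hdd
    have hu : ‖d⁻¹ • A‖ = 1 := by
      rw [norm_smul, Real.norm_of_nonneg (by positivity), ← hdd]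
      field_simp
    have hv : ‖d⁻¹ • B‖ = 1 := by
      rw [norm_smul, Real.norm_of_nonneg (by positivity), ← h]
      field_simp
    have h1 := hY _ _ hu hv
    rw [← smul_add, ← smul_sub, norm_smul, norm_smul, Real.norm_of_nonneg (by positivity),
      Real.mul_rpow (by positivity) (norm_nonneg _),
      Real.mul_rpow (by positivity) (norm_nonneg _), ← mul_add,
      Real.inv_rpow hd.le] at h1
    rw [Real.mul_rpow two_pos.le hd.le]
    have hdp : 0 < d ^ p := Real.rpow_pos_of_pos hd p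
    rw [inv_mul_le_iff₀ hdp] at h1
    linarith [mul_comm (d ^ p) ((2 : ℝ) ^ p)]

theorem tendsto_norm_of_close {E : Type*} [SeminormedAddCommGroup E] {a b : ℕ → E} {L : ℝ}
    (h : Tendsto (fun n => ‖a n - b n‖) atTop (𝓝 0))
    (hb : Tendsto (fun n => ‖b n‖) atTop (𝓝 L)) :
    Tendsto (fun n => ‖a n‖) atTop (𝓝 L) := by
  have h1 : Tendsto (fun n => ‖a n‖ - ‖b n‖) atTop (𝓝 0) := by
    refine squeeze_zero_norm (fun n => ?_) h
    rw [Real.norm_eq_abs]
    exact abs_norm_sub_norm_le _ _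
  simpa using h1.add hb

theorem tendsto_of_rpow_tendsto {p : ℝ} (hp : 0 < p) {a : ℕ → ℝ} {L : ℝ} (ha : ∀ n, 0 ≤ a n)
    (h : Tendsto (fun n => a n ^ p) atTop (𝓝 L)) :
    Tendsto a atTop (𝓝 (L ^ p⁻¹)) := by
  have h1 := h.rpow_const (p := p⁻¹) (Or.inr (inv_nonneg.mpr hp.le))
  refine h1.congr fun n => ?_
  rw [← Real.rpow_mul (ha n), mul_inv_cancel₀ hp.ne', Real.rpow_one]

/-- The limit superior bound for the midpoint of two points of equal limiting length. -/
theorem eventually_half_add_le {p : ℝ} (hp : 0 < p)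
    (hY : ∀ y y' : Y, ‖y‖ = 1 → ‖y'‖ = 1 → ‖y + y'‖ ^ p + ‖y - y'‖ ^ p ≤ (2 : ℝ) ^ p)
    {A B : ℕ → Y} {r s D : ℝ} (hr : 0 ≤ r) (hs : 0 < s) (hD : 0 ≤ D)
    (hDp : D ^ p = r ^ p + s ^ p)
    (hA : Tendsto (fun n => ‖A n‖) atTop (𝓝 D)) (hB : Tendsto (fun n => ‖B n‖) atTop (𝓝 D))
    (hAB : Tendsto (fun n => ‖A n - B n‖) atTop (𝓝 (2 * s)))
    {δ : ℝ} (hδ : 0 < δ) :
    ∀ᶠ n in atTop, ‖A n + B n‖ ≤ 2 * r + δ := by
  have hD0 : 0 < D := by
    rcases hD.lt_or_eq with h | h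
    · exact h
    · exfalso
      rw [← h, Real.zero_rpow hp.ne'] at hDp
      have := Real.rpow_pos_of_pos hs p
      have := Real.rpow_nonneg hr p
      linarith
  set C : ℕ → Y := fun n => (‖A n‖ / ‖B n‖) • B n with hC
  have hBpos : ∀ᶠ n in atTop, 0 < ‖B n‖ := hB.eventually (eventually_gt_nhds hD0)
  have hCnorm : ∀ᶠ n in atTop, ‖A n‖ = ‖C n‖ := by
    filter_upwards [hBpos] with n hn
    simp only [hC]
    rw [norm_smul, Real.norm_of_nonneg (by positivity), div_mul_cancel₀ _ hn.ne']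
  have hCB : Tendsto (fun n => ‖C n - B n‖) atTop (𝓝 0) := by
    have h1 : Tendsto (fun n => |‖A n‖ - ‖B n‖|) atTop (𝓝 0) := by
      simpa using (hA.sub hB).abs
    refine h1.congr' ?_
    filter_upwards [hBpos] with n hn
    simp only [hC]
    conv_rhs =>
      rw [show (‖A n‖ / ‖B n‖) • B n - B n = ((‖A n‖ - ‖B n‖) / ‖B n‖) • B n by
        rw [sub_div, sub_smul, div_self hn.ne', one_smul]]
    rw [norm_smul, Real.norm_eq_abs, abs_div, abs_of_pos hn, div_mul_cancel₀ _ hn.ne']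
  have hAC : Tendsto (fun n => ‖A n - C n‖) atTop (𝓝 (2 * s)) := by
    refine tendsto_norm_of_close ?_ hAB
    simpa [norm_sub_rev] using hCB
  have hR : Tendsto (fun n => (2 * ‖A n‖) ^ p - ‖A n - C n‖ ^ p) atTop (𝓝 ((2 * r) ^ p)) := by
    have h1 := ((hA.const_mul 2).rpow_const (p := p) (Or.inr hp.le)).sub
      (hAC.rpow_const (p := p) (Or.inr hp.le))
    convert h1 using 2
    rw [Real.mul_rpow two_pos.le hr, Real.mul_rpow two_pos.le hD,
      Real.mul_rpow two_pos.le hs.le, hDp]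
    ring
  have hlt : (2 * r) ^ p < (2 * r + δ / 2) ^ p :=
    Real.rpow_lt_rpow (by positivity) (by linarith) hp
  filter_upwards [hR.eventually (eventually_lt_nhds hlt), hCnorm,
    hCB.eventually (eventually_lt_nhds (half_pos hδ))] with n h1 h2 h3
  have h4 := pair_scaled hp hY (A n) (C n) h2
  have h5 : ‖A n + C n‖ ^ p < (2 * r + δ / 2) ^ p := by linarith
  have h6 : ‖A n + C n‖ < 2 * r + δ / 2 :=
    (Real.rpow_lt_rpow_iff (norm_nonneg _) (by positivity) hp).mp h5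
  have h7 : ‖A n + B n‖ ≤ ‖A n + C n‖ + ‖C n - B n‖ := by
    have := norm_sub_le (A n + C n) (C n - B n)
    rwa [show A n + C n - (C n - B n) = A n + B n by abel] at this
  linarith

/-- Uniform convexity in sequential form from the two point inequality. -/
theorem uc_of_pair {p : ℝ} (hp : 0 < p)
    (hY : ∀ y y' : Y, ‖y‖ = 1 → ‖y'‖ = 1 → ‖y + y'‖ ^ p + ‖y - y'‖ ^ p ≤ (2 : ℝ) ^ p)
    (e g : ℕ → Y) (hev : ∀ᶠ n in atTop, ‖e n‖ = 1 ∧ ‖g n‖ = 1)
    (hadd : Tendsto (fun n => ‖e n + g n‖) atTop (𝓝 2)) :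
    Tendsto (fun n => ‖e n - g n‖) atTop (𝓝 0) := by
    have h3 : Tendsto (fun n => (2 : ℝ) ^ p - ‖e n + g n‖ ^ p) atTop (𝓝 0) := by
      simpa using (hadd.rpow_const (p := p) (Or.inr hp.le)).const_sub ((2 : ℝ) ^ p)
    have h4 : Tendsto (fun n => ‖e n - g n‖ ^ p) atTop (𝓝 0) := by
      refine squeeze_zero' (Eventually.of_forall fun n => Real.rpow_nonneg (norm_nonneg _) p) ?_ h3
      filter_upwards [hev] with n hn
      have := hY _ _ hn.1 hn.2
      linarith
    have h5 := tendsto_of_rpow_tendsto hp (fun n => norm_nonneg _) h4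
    rwa [Real.zero_rpow (inv_ne_zero hp.ne')] at h5

/-- Points almost at the distances of `t • w` from both `w` and `-w` converge to `t • w`. -/
theorem tendsto_of_two_dist
    (hUC : ∀ e g : ℕ → Y, (∀ᶠ n in atTop, ‖e n‖ = 1 ∧ ‖g n‖ = 1) →
      Tendsto (fun n => ‖e n + g n‖) atTop (𝓝 2) → Tendsto (fun n => ‖e n - g n‖) atTop (𝓝 0))
    {w : Y} (hw : ‖w‖ = 1) {t : ℝ} (ht0 : 0 ≤ t) (ht1 : t < 1) {η : ℕ → Y}
    (h1 : ∀ δ : ℝ, 0 < δ → ∀ᶠ n in atTop, ‖w - η n‖ ≤ 1 - t + δ)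
    (h2 : ∀ δ : ℝ, 0 < δ → ∀ᶠ n in atTop, ‖w + η n‖ ≤ 1 + t + δ) :
    Tendsto η atTop (𝓝 (t • w)) := by
  set u : ℕ → Y := fun n => w - η n with hu
  set v : ℕ → Y := fun n => w + η n with hv
  set a : ℝ := 1 - t with ha
  set b : ℝ := 1 + t with hb
  have ha0 : 0 < a := by linarith
  have hb0 : 0 < b := by linarith
  have hsum : ∀ n, u n + v n = (2 : ℝ) • w := fun n => by
    simp only [hu, hv]; rw [two_smul]; abel
  have htwo : ∀ n, 2 ≤ ‖u n‖ + ‖v n‖ := fun n => by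
    have := norm_add_le (u n) (v n)
    rwa [hsum, norm_smul, hw, Real.norm_two, mul_one] at this
  have hua : Tendsto (fun n => ‖u n‖) atTop (𝓝 a) := by
    rw [Metric.tendsto_nhds]
    intro ε hε
    filter_upwards [h1 (ε / 2) (half_pos hε), h2 (ε / 2) (half_pos hε)] with n hn1 hn2
    have := htwo n
    simp only [hu, hv] at this ⊢
    rw [Real.dist_eq, abs_lt]
    constructor <;> linarith
  have hvb : Tendsto (fun n => ‖v n‖) atTop (𝓝 b) := by
    rw [Metric.tendsto_nhds]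
    intro ε hε
    filter_upwards [h1 (ε / 2) (half_pos hε), h2 (ε / 2) (half_pos hε)] with n hn1 hn2
    have := htwo n
    simp only [hu, hv] at this ⊢
    rw [Real.dist_eq, abs_lt]
    constructor <;> linarith
  have hupos : ∀ᶠ n in atTop, 0 < ‖u n‖ := hua.eventually (eventually_gt_nhds ha0)
  have hvpos : ∀ᶠ n in atTop, 0 < ‖v n‖ := hvb.eventually (eventually_gt_nhds hb0)
  set e : ℕ → Y := fun n => ‖u n‖⁻¹ • u n with he
  set g : ℕ → Y := fun n => ‖v n‖⁻¹ • v n with hg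
  have hev : ∀ᶠ n in atTop, ‖e n‖ = 1 ∧ ‖g n‖ = 1 := by
    filter_upwards [hupos, hvpos] with n hn hm
    simp only [he, hg]
    rw [norm_smul, norm_smul, Real.norm_of_nonneg (by positivity),
      Real.norm_of_nonneg (by positivity), inv_mul_cancel₀ hn.ne', inv_mul_cancel₀ hm.ne']
    exact ⟨rfl, rfl⟩
  have hue : Tendsto (fun n => ‖u n - a • e n‖) atTop (𝓝 0) := by
    have h3 : Tendsto (fun n => |‖u n‖ - a|) atTop (𝓝 0) := by
      simpa using (hua.sub_const a).abs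
    refine h3.congr' ?_
    filter_upwards [hupos, hev] with n hn hn'
    have h4 : u n = ‖u n‖ • e n := by
      simp only [he]; rw [smul_smul, mul_inv_cancel₀ hn.ne', one_smul]
    conv_rhs => rw [show u n - a • e n = ‖u n‖ • e n - a • e n by rw [← h4]]
    rw [← sub_smul, norm_smul, hn'.1, mul_one, Real.norm_eq_abs]
  have hvg : Tendsto (fun n => ‖v n - b • g n‖) atTop (𝓝 0) := by
    have h3 : Tendsto (fun n => |‖v n‖ - b|) atTop (𝓝 0) := by
      simpa using (hvb.sub_const b).abs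
    refine h3.congr' ?_
    filter_upwards [hvpos, hev] with n hn hn'
    have h4 : v n = ‖v n‖ • g n := by
      simp only [hg]; rw [smul_smul, mul_inv_cancel₀ hn.ne', one_smul]
    conv_rhs => rw [show v n - b • g n = ‖v n‖ • g n - b • g n by rw [← h4]]
    rw [← sub_smul, norm_smul, hn'.2, mul_one, Real.norm_eq_abs]
  have hadd : Tendsto (fun n => ‖e n + g n‖) atTop (𝓝 2) := by
    have hlow : Tendsto
        (fun n => (2 - ‖u n - a • e n‖ - ‖v n - b • g n‖ - (b - a)) / a) atTop (𝓝 2) := by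
      have h3 := ((((tendsto_const_nhds (x := (2 : ℝ))).sub hue).sub hvg).sub_const
        (b - a)).div_const a
      convert h3 using 2
      field_simp
      linarith
    refine tendsto_of_tendsto_of_tendsto_of_le_of_le' hlow tendsto_const_nhds ?_ ?_
    · filter_upwards [hev] with n hn
      rw [div_le_iff₀ ha0]
      have h3 : ‖(u n - a • e n) + (v n - b • g n)‖ ≤ ‖u n - a • e n‖ + ‖v n - b • g n‖ :=
        norm_add_le _ _
      have h4 : ‖(2 : ℝ) • w‖ ≤
          ‖(u n - a • e n) + (v n - b • g n)‖ + (‖a • (e n + g n)‖ + ‖(b - a) • g n‖) := by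
        refine le_trans (le_of_eq ?_) (le_trans (norm_add_le _ _)
          (add_le_add (le_refl _) (norm_add_le _ _)))
        congr 1
        rw [← hsum n]
        module
      rw [norm_smul, norm_smul, norm_smul, hw, Real.norm_two, hn.2, Real.norm_of_nonneg ha0.le,
        Real.norm_of_nonneg (show 0 ≤ b - a by linarith)] at h4
      linarith [mul_comm a ‖e n + g n‖]
    · filter_upwards [hev] with n hn
      exact (norm_add_le _ _).trans (by rw [hn.1, hn.2]; norm_num)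
  have hsub : Tendsto (fun n => ‖e n - g n‖) atTop (𝓝 0) := hUC e g hev hadd
  rw [tendsto_iff_norm_sub_tendsto_zero]
  have h6 : Tendsto (fun n => (b * ‖u n - a • e n‖ + a * b * ‖e n - g n‖
      + a * ‖v n - b • g n‖) / 2) atTop (𝓝 0) := by
    simpa using (((hue.const_mul b).add (hsub.const_mul (a * b))).add
      (hvg.const_mul a)).div_const 2
  refine squeeze_zero (fun n => norm_nonneg _) (fun n => ?_) h6
  have h7 : (2 : ℝ) • (η n - t • w) =
      -(b • (u n - a • e n) + (a * b) • (e n - g n) - a • (v n - b • g n)) := by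
    simp only [hu, hv, smul_sub, smul_add, smul_smul, ha, hb]
    module
  have h8 : ‖(2 : ℝ) • (η n - t • w)‖ ≤
      b * ‖u n - a • e n‖ + a * b * ‖e n - g n‖ + a * ‖v n - b • g n‖ := by
    rw [h7, norm_neg]
    refine (norm_sub_le _ _).trans ?_
    refine le_trans (add_le_add (norm_add_le _ _) (le_refl _)) (le_of_eq ?_)
    rw [norm_smul, norm_smul, norm_smul, Real.norm_of_nonneg hb0.le, Real.norm_of_nonneg ha0.le,
      Real.norm_of_nonneg (mul_nonneg ha0.le hb0.le)]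
  rw [norm_smul, Real.norm_two] at h8
  linarith

end

end Vale.Agent.P084.Asymp
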