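import Mathlib

/-!
# P084: the Mazur-Ulam property
-/

open Metric Filter Topology

universe u v w

namespace Vale.Agent.P084.Asymp

/-- Every surjective isometry from the unit sphere of `X` onto the unit sphere of a real normed
space (not required to be complete) is the restriction of a linear isometry equivalence. -/
def HasMazurUlamProperty (X : Type u) [NormedAddCommGroup X] [NormedSpace ℝ X] : Prop :=
  ∀ (Y : Type v) [NormedAddCommGroup Y] [NormedSpace ℝ Y]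
    (f : sphere (0 : X) 1 → sphere (0 : Y) 1), Isometry f → Function.Surjective f →
      ∃ T : X ≃ₗᵢ[ℝ] Y, ∀ x : sphere (0 : X) 1, T x = f x

/-- Clarkson's inequality with exponent `p`. -/
def HasClarksonInequality (X : Type u) [NormedAddCommGroup X] (p : ℝ) : Prop :=
  ∀ a b : X, ‖a + b‖ ^ p + ‖a - b‖ ^ p ≤ (2 : ℝ) ^ (p - 1) * (‖a‖ ^ p + ‖b‖ ^ p)

/-- Against every finite set there are unit vectors which are almost p-orthogonal. -/
def HasAlmostOrthogonalVectors (X : Type u) [NormedAddCommGroup X] [NormedSpace ℝ X]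
    (p : ℝ) : Prop :=
  ∀ (S : Finset X) (ε : ℝ), 0 < ε → ∃ y : X, ‖y‖ = 1 ∧
    ∀ x ∈ S, ∀ t : ℝ, 0 ≤ t → t ≤ 1 →
      ‖x + t • y‖ ^ p ≤ ‖x‖ ^ p + t ^ p + ε ∧ ‖x - t • y‖ ^ p ≤ ‖x‖ ^ p + t ^ p + ε

/-- Power type uniform convexity with constant `K` and exponent `q`. -/
def HasPowerTypeConvexity (Z : Type u) [NormedAddCommGroup Z] (K q : ℝ) : Prop :=
  ∀ a b : Z, ‖a + b‖ ^ q + K * ‖a - b‖ ^ q ≤ (2 : ℝ) ^ (q - 1) * (‖a‖ ^ q + ‖b‖ ^ q)

/-- Every bounded sequence has a subsequence `a` and a point `c` such that `a - c` is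
asymptotically p-orthogonal to every vector. -/
def HasPropertyMp (X : Type u) [NormedAddCommGroup X] (p : ℝ) : Prop :=
  ∀ a : ℕ → X, (∃ R, ∀ n, ‖a n‖ ≤ R) → ∃ φ : ℕ → ℕ, StrictMono φ ∧ ∃ c : X,
    ∀ x : X, Tendsto (fun n => ‖x + (a (φ n) - c)‖ ^ p - ‖a (φ n) - c‖ ^ p) atTop
      (𝓝 (‖x‖ ^ p))

/-- Every closed subspace which is not finite-dimensional has the Mazur-Ulam property. -/
def SubspacesHaveMazurUlam (X : Type u) [NormedAddCommGroup X] [NormedSpace ℝ X] : Prop :=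
  ∀ W : Submodule ℝ X, IsClosed (W : Set X) → ¬ FiniteDimensional ℝ W →
    HasMazurUlamProperty.{u, v} W

/-- The space of p-summable families in `Z` indexed by `ι` has the Mazur-Ulam property. -/
def LpHasMazurUlam (ι : Type w) (Z : Type u) [NormedAddCommGroup Z] [NormedSpace ℝ Z]
    (p : ℝ) [Fact (1 ≤ ENNReal.ofReal p)] : Prop :=
  HasMazurUlamProperty.{max w u, v} (lp (fun _ : ι => Z) (ENNReal.ofReal p))

/-- The reverse Clarkson inequality with exponent `p`, together with unit vectors almost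
p-orthogonal from below against every finite set. -/
def HasReverseStructure (X : Type u) [NormedAddCommGroup X] [NormedSpace ℝ X] (p : ℝ) : Prop :=
  (∀ a b : X, ‖a + b‖ ^ p + ‖a - b‖ ^ p ≤ 2 * (‖a‖ ^ p + ‖b‖ ^ p)) ∧
    ∀ (S : Finset X) (ε : ℝ), 0 < ε → ∃ y : X, ‖y‖ = 1 ∧
      ∀ x ∈ S, ∀ t : ℝ, 0 ≤ t → t ≤ 1 →
        ‖x‖ ^ p + t ^ p - ε ≤ ‖x + t • y‖ ^ p ∧ ‖x‖ ^ p + t ^ p - ε ≤ ‖x - t • y‖ ^ p

end Vale.Agent.P084.Asymp
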