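import Vale.Agent.P084.Asymp.Basic

/-!
# P084: the radial map is linear
-/

open Metric Filter Topology

namespace Vale.Agent.P084.Asymp

variable {X : Type*} [NormedAddCommGroup X] [NormedSpace ℝ X]
variable {Y : Type*} [NormedAddCommGroup Y] [NormedSpace ℝ Y]

theorem norm_map_smul_sub_le {p : ℝ} (hp : 0 < p)
    (hC : ∀ u v : X, ‖u + v‖ ^ p + ‖u - v‖ ^ p ≤ (2 : ℝ) ^ (p - 1) * (‖u‖ ^ p + ‖v‖ ^ p))
    (hA : ∀ (S : Finset X) (ε : ℝ), 0 < ε → ∃ y : X, ‖y‖ = 1 ∧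
      ∀ v ∈ S, ∀ t : ℝ, 0 ≤ t → t ≤ 1 →
        ‖v + t • y‖ ^ p ≤ ‖v‖ ^ p + t ^ p + ε ∧ ‖v - t • y‖ ^ p ≤ ‖v‖ ^ p + t ^ p + ε)
    {f : sphere (0 : X) 1 → sphere (0 : Y) 1} (hf : Isometry f) (hs : Function.Surjective f)
    (z b : sphere (0 : X) 1) {t : ℝ} (ht0 : 0 ≤ t) (ht1 : t < 1) :
    ‖t • (f z : Y) - f b‖ ≤ ‖t • (z : X) - b‖ := by
  classical
  have hY := pair_unit hp hC hf hs
  have htp : t ^ p < 1 := Real.rpow_lt_one ht0 ht1 hp
  set s : ℝ := (1 - t ^ p) ^ p⁻¹ with hsdef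
  have hs0 : 0 < s := Real.rpow_pos_of_pos (by linarith) _
  have hs1 : s ≤ 1 := Real.rpow_le_one (by linarith)
    (by linarith [Real.rpow_nonneg ht0 p]) (inv_nonneg.mpr hp.le)
  have hsp : s ^ p = 1 - t ^ p := by
    rw [hsdef, ← Real.rpow_mul (by linarith), inv_mul_cancel₀ hp.ne', Real.rpow_one]
  set x : X := t • (z : X) with hx
  have hxn : ‖x‖ = t := by
    rw [hx, norm_smul, norm_coe_sphere, mul_one, Real.norm_of_nonneg ht0]
  have hε : ∀ n : ℕ, (0 : ℝ) < 1 / ((n : ℝ) + 2) := fun n => by positivity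
  choose y hy1 hy2 using fun n : ℕ =>
    hA {x, x - (b : X), x - (z : X), x + (z : X)} (1 / ((n : ℝ) + 2)) (hε n)
  have hεlim : Tendsto (fun n : ℕ => 1 / ((n : ℝ) + 2)) atTop (𝓝 0) := by
    have h1 := (tendsto_one_div_add_atTop_nhds_zero_nat (𝕜 := ℝ)).comp
      (tendsto_add_atTop_nat 1)
    refine h1.congr fun n => ?_
    simp only [Function.comp]
    push_cast
    ring
  -- two sided control of the norms along the almost orthogonal direction
  have key : ∀ v ∈ ({x, x - (b : X), x - (z : X), x + (z : X)} : Finset X), ∀ n,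
      |‖v + s • y n‖ ^ p - (‖v‖ ^ p + s ^ p)| ≤ 1 / ((n : ℝ) + 2) ∧
      |‖v - s • y n‖ ^ p - (‖v‖ ^ p + s ^ p)| ≤ 1 / ((n : ℝ) + 2) := by
    intro v hv n
    obtain ⟨h1, h2⟩ := hy2 n v hv s hs0.le hs1
    have h3 := hC (v + s • y n) (v - s • y n)
    rw [show v + s • y n + (v - s • y n) = (2 : ℝ) • v by module,
      show v + s • y n - (v - s • y n) = (2 * s) • y n by module, norm_smul, norm_smul,
      Real.norm_two, Real.norm_of_nonneg (by positivity), hy1 n, mul_one,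
      Real.mul_rpow two_pos.le (norm_nonneg _), Real.mul_rpow two_pos.le hs0.le,
      Real.rpow_sub two_pos, Real.rpow_one] at h3
    have h2p : (0 : ℝ) < (2 : ℝ) ^ p := Real.rpow_pos_of_pos two_pos p
    have h4 : 2 * (‖v‖ ^ p + s ^ p) ≤ ‖v + s • y n‖ ^ p + ‖v - s • y n‖ ^ p := by
      refine le_of_mul_le_mul_left ?_ h2p
      calc (2 : ℝ) ^ p * (2 * (‖v‖ ^ p + s ^ p))
          = 2 * ((2 : ℝ) ^ p * ‖v‖ ^ p + (2 : ℝ) ^ p * s ^ p) := by ring
        _ ≤ 2 * ((2 : ℝ) ^ p / 2 * (‖v + s • y n‖ ^ p + ‖v - s • y n‖ ^ p)) :=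
          mul_le_mul_of_nonneg_left h3 two_pos.le
        _ = _ := by ring
    constructor <;> rw [abs_le] <;> constructor <;> linarith
  have lim : ∀ v ∈ ({x, x - (b : X), x - (z : X), x + (z : X)} : Finset X),
      Tendsto (fun n => ‖v + s • y n‖) atTop (𝓝 ((‖v‖ ^ p + s ^ p) ^ p⁻¹)) ∧
      Tendsto (fun n => ‖v - s • y n‖) atTop (𝓝 ((‖v‖ ^ p + s ^ p) ^ p⁻¹)) := by
    intro v hv
    constructor
    · refine tendsto_of_rpow_tendsto hp (fun n => norm_nonneg _) ?_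
      exact tendsto_iff_norm_sub_tendsto_zero.mpr
        (squeeze_zero (fun n => norm_nonneg _)
          (fun n => by rw [Real.norm_eq_abs]; exact (key v hv n).1) hεlim)
    · refine tendsto_of_rpow_tendsto hp (fun n => norm_nonneg _) ?_
      exact tendsto_iff_norm_sub_tendsto_zero.mpr
        (squeeze_zero (fun n => norm_nonneg _)
          (fun n => by rw [Real.norm_eq_abs]; exact (key v hv n).2) hεlim)
  have hxmem : x ∈ ({x, x - (b : X), x - (z : X), x + (z : X)} : Finset X) := by simp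
  have hxp : ‖x‖ ^ p + s ^ p = 1 := by rw [hxn, hsp]; ring
  set g : ℕ → X := fun n => x + s • y n with hg
  set h : ℕ → X := fun n => x - s • y n with hh
  have hsmall : ∀ n : ℕ, 1 / ((n : ℝ) + 2) < 1 := fun n => by
    rw [div_lt_one (by positivity)]
    linarith [n.cast_nonneg (α := ℝ)]
  have hgne : ∀ n, g n ≠ 0 ∧ h n ≠ 0 := by
    intro n
    obtain ⟨k1, k2⟩ := key x hxmem n
    rw [hxp, abs_le] at k1 k2
    constructor <;> intro h0 <;> simp only [hg, hh] at h0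
    · rw [h0, norm_zero, Real.zero_rpow hp.ne'] at k1
      linarith [hsmall n]
    · rw [h0, norm_zero, Real.zero_rpow hp.ne'] at k2
      linarith [hsmall n]
  have hgn : Tendsto (fun n => ‖g n‖) atTop (𝓝 1) ∧ Tendsto (fun n => ‖h n‖) atTop (𝓝 1) := by
    have := lim x hxmem
    rwa [hxp, Real.one_rpow] at this
  set c₁ : ℕ → sphere (0 : X) 1 := fun n => ⟨‖g n‖⁻¹ • g n, by
    simp [norm_smul, (hgne n).1]⟩ with hc₁
  set c₂ : ℕ → sphere (0 : X) 1 := fun n => ⟨‖h n‖⁻¹ • h n, by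
    simp [norm_smul, (hgne n).2]⟩ with hc₂
  have hclose : ∀ (q : ℕ → X), (∀ n, q n ≠ 0) → Tendsto (fun n => ‖q n‖) atTop (𝓝 1) →
      Tendsto (fun n => ‖‖q n‖⁻¹ • q n - q n‖) atTop (𝓝 0) := by
    intro q hq hq1
    have h1 : Tendsto (fun n => |1 - ‖q n‖|) atTop (𝓝 0) := by
      simpa using (hq1.const_sub 1).abs
    refine h1.congr fun n => ?_
    have hpos : 0 < ‖q n‖ := norm_pos_iff.mpr (hq n)
    conv_rhs => rw [show ‖q n‖⁻¹ • q n - q n = (‖q n‖⁻¹ - 1) • q n by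
      rw [sub_smul, one_smul]]
    rw [norm_smul, Real.norm_eq_abs]
    nth_rewrite 3 [← abs_of_pos hpos]
    rw [← abs_mul]
    congr 1
    field_simp
  have hc1 := hclose g (fun n => (hgne n).1) hgn.1
  have hc2 := hclose h (fun n => (hgne n).2) hgn.2
  have h12 : Tendsto (fun n => ‖(c₁ n : X) - c₂ n‖) atTop (𝓝 (2 * s)) := by
    refine tendsto_norm_of_close (b := fun n => g n - h n) ?_ ?_
    · refine squeeze_zero (fun n => norm_nonneg _) (fun n => ?_) (by simpa using hc1.add hc2)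
      refine le_trans (le_of_eq ?_) (norm_sub_le _ _)
      simp only [hc₁, hc₂]
      congr 1
      abel
    · refine tendsto_const_nhds.congr fun n => ?_
      simp only [hg, hh]
      rw [show x + s • y n - (x - s • y n) = (2 * s) • y n by module, norm_smul, hy1 n, mul_one,
        Real.norm_of_nonneg (by positivity)]
  set η : ℕ → Y := fun n => (2 : ℝ)⁻¹ • ((f (c₁ n) : Y) + f (c₂ n)) with hη
  have bound : ∀ β : sphere (0 : X) 1,
      x - (β : X) ∈ ({x, x - (b : X), x - (z : X), x + (z : X)} : Finset X) →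
      ∀ δ : ℝ, 0 < δ → ∀ᶠ n in atTop, ‖(f β : Y) - η n‖ ≤ ‖x - β‖ + δ := by
    intro β hβ δ hδ
    set D : ℝ := (‖x - (β : X)‖ ^ p + s ^ p) ^ p⁻¹ with hD
    have hsum0 : 0 ≤ ‖x - (β : X)‖ ^ p + s ^ p :=
      add_nonneg (Real.rpow_nonneg (norm_nonneg _) _) (Real.rpow_nonneg hs0.le _)
    have hD0 : 0 ≤ D := Real.rpow_nonneg hsum0 _
    have hDp : D ^ p = ‖x - (β : X)‖ ^ p + s ^ p := by
      rw [hD, ← Real.rpow_mul hsum0, inv_mul_cancel₀ hp.ne', Real.rpow_one]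
    obtain ⟨l1, l2⟩ := lim _ hβ
    have hA' : Tendsto (fun n => ‖(f β : Y) - f (c₁ n)‖) atTop (𝓝 D) := by
      refine (tendsto_norm_of_close (a := fun n => (c₁ n : X) - β)
        (b := fun n => x - β + s • y n) ?_ l1).congr fun n => ?_
      · refine hc1.congr fun n => ?_
        simp only [hc₁, hg]
        congr 1
        abel
      · rw [norm_map_sub hf, norm_sub_rev]
    have hB' : Tendsto (fun n => ‖(f β : Y) - f (c₂ n)‖) atTop (𝓝 D) := by
      refine (tendsto_norm_of_close (a := fun n => (c₂ n : X) - β)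
        (b := fun n => x - β - s • y n) ?_ l2).congr fun n => ?_
      · refine hc2.congr fun n => ?_
        simp only [hc₂, hh]
        congr 1
        abel
      · rw [norm_map_sub hf, norm_sub_rev]
    have hAB : Tendsto (fun n => ‖((f β : Y) - f (c₁ n)) - ((f β : Y) - f (c₂ n))‖) atTop
        (𝓝 (2 * s)) := by
      refine h12.congr fun n => ?_
      rw [sub_sub_sub_cancel_left, norm_map_sub hf, norm_sub_rev]
    filter_upwards [eventually_half_add_le hp hY (norm_nonneg _) hs0 hD0 hDp hA' hB' hAB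
      (mul_pos two_pos hδ)] with n hn
    have h1 : (f β : Y) - η n =
        (2 : ℝ)⁻¹ • (((f β : Y) - f (c₁ n)) + ((f β : Y) - f (c₂ n))) := by
      simp only [hη]; module
    rw [h1, norm_smul, Real.norm_of_nonneg (by positivity)]
    linarith
  have hlim : Tendsto η atTop (𝓝 (t • (f z : Y))) := by
    refine tendsto_of_two_dist (uc_of_pair hp hY) (norm_coe_sphere _) ht0 ht1 (fun δ hδ => ?_) (fun δ hδ => ?_)
    · filter_upwards [bound z (by simp) δ hδ] with n hn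
      rwa [hx, show t • (z : X) - z = -((1 - t) • (z : X)) by module, norm_neg, norm_smul,
        norm_coe_sphere, mul_one, Real.norm_of_nonneg (by linarith)] at hn
    · filter_upwards [bound (opp z) (by simp [coe_opp]) δ hδ] with n hn
      rw [map_opp (fun _ _ ha hb => eq_of_norm_add_eq_two hC ha hb) hf hs, coe_opp, hx,
        show t • (z : X) - -(z : X) = (1 + t) • (z : X) by module, norm_smul,
        norm_coe_sphere, mul_one, Real.norm_of_nonneg (by linarith),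
        show -(f z : Y) - η n = -((f z : Y) + η n) by abel, norm_neg] at hn
      exact hn
  refine le_of_forall_pos_le_add fun δ hδ => ?_
  have hlim' : Tendsto (fun n => ‖(f b : Y) - η n‖) atTop (𝓝 ‖t • (f z : Y) - f b‖) := by
    rw [norm_sub_rev (t • (f z : Y))]
    exact (hlim.const_sub _).norm
  exact le_of_tendsto hlim' (bound b (by simp) δ hδ)

theorem norm_map_smul_sub {p : ℝ} (hp : 0 < p)
    (hC : ∀ u v : X, ‖u + v‖ ^ p + ‖u - v‖ ^ p ≤ (2 : ℝ) ^ (p - 1) * (‖u‖ ^ p + ‖v‖ ^ p))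
    (hA : ∀ (S : Finset X) (ε : ℝ), 0 < ε → ∃ y : X, ‖y‖ = 1 ∧
      ∀ v ∈ S, ∀ t : ℝ, 0 ≤ t → t ≤ 1 →
        ‖v + t • y‖ ^ p ≤ ‖v‖ ^ p + t ^ p + ε ∧ ‖v - t • y‖ ^ p ≤ ‖v‖ ^ p + t ^ p + ε)
    {f : sphere (0 : X) 1 → sphere (0 : Y) 1} (hf : Isometry f) (hs : Function.Surjective f)
    (z b : sphere (0 : X) 1) {t : ℝ} (ht0 : 0 ≤ t) (ht1 : t ≤ 1) :
    ‖t • (f z : Y) - f b‖ = ‖t • (z : X) - b‖ := by
  rcases ht1.lt_or_eq with ht | rfl
  swap
  · rw [one_smul, one_smul, norm_map_sub hf]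
  set x : X := t • (z : X) with hx
  have hxn : ‖x‖ = t := by
    rw [hx, norm_smul, norm_coe_sphere, mul_one, Real.norm_of_nonneg ht0]
  have hd : 0 < ‖x - b‖ := by
    rw [norm_pos_iff, sub_ne_zero]
    intro h
    rw [h, norm_coe_sphere] at hxn
    linarith
  set D : ℝ → X := fun l => (b : X) + l • (x - b) with hD
  set L : ℝ := 2 / ‖x - b‖ + 1 with hL
  have hL1 : 1 ≤ L := by
    have : 0 ≤ 2 / ‖x - (b : X)‖ := by positivity
    linarith
  have hcont : ContinuousOn (fun l => ‖D l‖) (Set.Icc 1 L) := by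
    apply Continuous.continuousOn
    simp only [hD]
    fun_prop
  have h1 : ‖D 1‖ ≤ 1 := by
    simp only [hD, one_smul, add_sub_cancel]
    linarith
  have h2 : 1 ≤ ‖D L‖ := by
    have h3 : ‖L • (x - (b : X))‖ = 2 + ‖x - b‖ := by
      rw [norm_smul, Real.norm_of_nonneg (by linarith), hL]
      field_simp
    have h4 : ‖L • (x - (b : X))‖ ≤ ‖D L‖ + ‖(b : X)‖ := by
      refine le_trans (le_of_eq ?_) (norm_sub_le _ _)
      simp [hD]
    rw [norm_coe_sphere] at h4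
    linarith
  obtain ⟨l, ⟨hl1, -⟩, hl⟩ := intermediate_value_Icc hL1 hcont ⟨h1, h2⟩
  set c : sphere (0 : X) 1 := ⟨D l, by simpa using hl⟩ with hc
  have e1 : ‖(c : X) - b‖ = l * ‖x - b‖ := by
    simp only [hc, hD]
    rw [add_sub_cancel_left, norm_smul, Real.norm_of_nonneg (by linarith)]
  have e2 : ‖(c : X) - x‖ = (l - 1) * ‖x - b‖ := by
    simp only [hc, hD]
    rw [show (b : X) + l • (x - b) - x = (l - 1) • (x - b) by module, norm_smul,
      Real.norm_of_nonneg (by linarith)]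
  have u1 := norm_map_smul_sub_le hp hC hA hf hs z b ht0 ht
  have u2 := norm_map_smul_sub_le hp hC hA hf hs z c ht0 ht
  rw [← hx] at u1 u2
  rw [norm_sub_rev x, e2] at u2
  have u3 : ‖(f c : Y) - f b‖ ≤ ‖t • (f z : Y) - f c‖ + ‖t • (f z : Y) - f b‖ := by
    rw [norm_sub_rev _ (f c : Y)]
    exact norm_sub_le_norm_sub_add_norm_sub _ _ _
  rw [norm_map_sub hf, e1] at u3
  linarith

/-- The radial extension is linear as soon as it preserves distances to points of the sphere. -/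
theorem extend_of_dist (f : sphere (0 : X) 1 → sphere (0 : Y) 1) (hf : Isometry f)
    (hs : Function.Surjective f)
    (hkey : ∀ (z b : sphere (0 : X) 1) (t : ℝ), 0 ≤ t → t ≤ 1 →
      ‖t • (f z : Y) - f b‖ = ‖t • (z : X) - b‖) :
    ∃ T : X ≃ₗᵢ[ℝ] Y, ∀ x : sphere (0 : X) 1, T x = f x := by
  classical
  let F : X → Y := fun x => if h : x = 0 then 0 else
    ‖x‖ • (f ⟨‖x‖⁻¹ • x, by simp [norm_smul, h]⟩ : Y)
  have hF0 : F 0 = 0 := by simp [F]
  have hFs : ∀ (r : ℝ) (z : sphere (0 : X) 1), 0 < r → F (r • (z : X)) = r • (f z : Y) := by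
    intro r z hr
    have hne : r • (z : X) ≠ 0 := smul_ne_zero hr.ne' (ne_zero_of_mem_unit_sphere z)
    have hn : ‖r • (z : X)‖ = r := by
      rw [norm_smul, norm_coe_sphere, mul_one, Real.norm_of_nonneg hr.le]
    simp only [F, dif_neg hne]
    congr 1
    congr 2
    apply Subtype.ext
    simp [hn, smul_smul, hr.ne']
  have hdec : ∀ x : X, x ≠ 0 → ∃ (r : ℝ) (z : sphere (0 : X) 1), 0 < r ∧ x = r • (z : X) := by
    intro x hx
    refine ⟨‖x‖, ⟨‖x‖⁻¹ • x, by simp [norm_smul, hx]⟩, norm_pos_iff.mpr hx, ?_⟩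
    simp [smul_smul, hx]
  have hFn : ∀ x, ‖F x‖ = ‖x‖ := by
    intro x
    rcases eq_or_ne x 0 with rfl | hx
    · simp [hF0]
    · obtain ⟨r, z, hr, rfl⟩ := hdec x hx
      rw [hFs r z hr, norm_smul, norm_smul, norm_coe_sphere, norm_coe_sphere]
  have hiso : ∀ x y, ‖y‖ ≤ ‖x‖ → ‖F x - F y‖ = ‖x - y‖ := by
    intro x y hxy
    rcases eq_or_ne y 0 with rfl | hy
    · simp [hF0, hFn]
    have hx : x ≠ 0 := by
      intro h
      rw [h, norm_zero] at hxy
      exact hy (norm_le_zero_iff.mp hxy)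
    obtain ⟨r, z, hr, rfl⟩ := hdec x hx
    obtain ⟨r', z', hr', rfl⟩ := hdec y hy
    rw [norm_smul, norm_smul, norm_coe_sphere, norm_coe_sphere, mul_one, mul_one,
      Real.norm_of_nonneg hr.le, Real.norm_of_nonneg hr'.le] at hxy
    rw [hFs r z hr, hFs r' z' hr']
    have key := hkey z' z (r' / r) (by positivity) ((div_le_one hr).mpr hxy)
    have h1 : r • (f z : Y) - r' • (f z' : Y) =
        -(r • ((r' / r) • (f z' : Y) - f z)) := by
      rw [smul_sub, smul_smul, mul_div_cancel₀ _ hr.ne', neg_sub]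
    have h2 : r • (z : X) - r' • (z' : X) = -(r • ((r' / r) • (z' : X) - z)) := by
      rw [smul_sub, smul_smul, mul_div_cancel₀ _ hr.ne', neg_sub]
    rw [h1, h2, norm_neg, norm_neg, norm_smul, norm_smul, key]
  have hIso : Isometry F := Isometry.of_dist_eq fun x y => by
    rw [dist_eq_norm, dist_eq_norm]
    rcases le_total ‖y‖ ‖x‖ with h | h
    · exact hiso x y h
    · rw [norm_sub_rev, hiso y x h, norm_sub_rev]
  have hsurj : Function.Surjective F := by
    intro w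
    rcases eq_or_ne w 0 with rfl | hw
    · exact ⟨0, hF0⟩
    · obtain ⟨z, hz⟩ := hs ⟨‖w‖⁻¹ • w, by simp [norm_smul, hw]⟩
      refine ⟨‖w‖ • (z : X), ?_⟩
      rw [hFs _ z (norm_pos_iff.mpr hw), hz]
      simp [smul_smul, hw]
  let e : X ≃ᵢ Y :=
    { toEquiv := Equiv.ofBijective F ⟨hIso.injective, hsurj⟩
      isometry_toFun := hIso }
  refine ⟨e.toRealLinearIsometryEquivOfMapZero hF0, fun x => ?_⟩
  show F (x : X) = f x
  have := hFs 1 x one_pos
  rwa [one_smul, one_smul] at this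

/-- The abstract theorem. -/
theorem extend {p : ℝ} (hp : 0 < p)
    (hC : ∀ u v : X, ‖u + v‖ ^ p + ‖u - v‖ ^ p ≤ (2 : ℝ) ^ (p - 1) * (‖u‖ ^ p + ‖v‖ ^ p))
    (hA : ∀ (S : Finset X) (ε : ℝ), 0 < ε → ∃ y : X, ‖y‖ = 1 ∧
      ∀ v ∈ S, ∀ t : ℝ, 0 ≤ t → t ≤ 1 →
        ‖v + t • y‖ ^ p ≤ ‖v‖ ^ p + t ^ p + ε ∧ ‖v - t • y‖ ^ p ≤ ‖v‖ ^ p + t ^ p + ε)
    (f : sphere (0 : X) 1 → sphere (0 : Y) 1) (hf : Isometry f) (hs : Function.Surjective f) :
    ∃ T : X ≃ₗᵢ[ℝ] Y, ∀ x : sphere (0 : X) 1, T x = f x :=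
  extend_of_dist f hf hs fun z b _ ht0 ht1 => norm_map_smul_sub hp hC hA hf hs z b ht0 ht1

end Vale.Agent.P084.Asymp
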