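import Vale.Agent.P084.Asymp.Extend

/-!
# P084: the hypotheses for lp-sums of a power type uniformly convex space
-/

open Metric Filter Topology
open scoped ENNReal

namespace Vale.Agent.P084.Asymp

theorem add_rpow_le_one {K k : ℝ} (hK : 0 < K) (hk : 1 ≤ k) (hKk : 2 ≤ (1 + K) ^ k)
    {a b : ℝ} (hb : 0 ≤ b) (hba : b ≤ a) (hab : a + K * b ≤ 1) : a ^ k + b ^ k ≤ 1 := by
  set c : ℝ := 1 / (1 + K) with hc
  set β : ℝ := b * (1 + K) with hβ
  have hc0 : 0 ≤ c := by positivity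
  have hβ0 : 0 ≤ β := by positivity
  have hk0 : k ≠ 0 := by linarith
  have hβc : β * c = b := by rw [hβ, hc]; field_simp
  have hck : 2 * c ^ k ≤ 1 := by
    have h1 : c ^ k * (1 + K) ^ k = 1 := by
      rw [← Real.mul_rpow hc0 (by linarith), hc, one_div_mul_cancel (by linarith),
        Real.one_rpow]
    nlinarith [Real.rpow_nonneg hc0 k]
  have hβ1 : a - b + β ≤ 1 := by rw [hβ]; linarith
  have ha := Real.rpow_arith_mean_le_arith_mean_rpow Finset.univ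
    ![a - b, β, 1 - (a - b) - β] ![1, c, 0]
    (fun i _ => by fin_cases i <;> simp <;> linarith)
    (by simp [Fin.sum_univ_three])
    (fun i _ => by fin_cases i <;> simp [hc0]) hk
  have hb' := Real.rpow_arith_mean_le_arith_mean_rpow Finset.univ
    ![β, 1 - β] ![c, 0]
    (fun i _ => by fin_cases i <;> simp <;> linarith)
    (by simp [Fin.sum_univ_two])
    (fun i _ => by fin_cases i <;> simp [hc0]) hk
  simp only [Fin.sum_univ_three, Fin.sum_univ_two, Matrix.cons_val_zero, Matrix.cons_val_one,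
    Matrix.cons_val_two, Matrix.head_cons, Matrix.tail_cons, mul_one, mul_zero, add_zero,
    Real.one_rpow, Real.zero_rpow hk0, hβc, sub_add_cancel] at ha hb'
  nlinarith

variable {Z : Type*} [NormedAddCommGroup Z] [NormedSpace ℝ Z]

/-- Power type uniform convexity implies Clarkson's inequality for all large exponents. -/
theorem clarkson_of_powerType {K q p : ℝ} (hK : 0 < K) (hq : 0 < q) (hqp : q ≤ p)
    (hKp : 2 ≤ (1 + K) ^ (p / q))
    (hZ : ∀ u v : Z, ‖u + v‖ ^ q + K * ‖u - v‖ ^ q ≤ (2 : ℝ) ^ (q - 1) * (‖u‖ ^ q + ‖v‖ ^ q))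
    (u v : Z) : ‖u + v‖ ^ p + ‖u - v‖ ^ p ≤ (2 : ℝ) ^ (p - 1) * (‖u‖ ^ p + ‖v‖ ^ p) := by
  have hp : 0 < p := hq.trans_le hqp
  set k := p / q with hk
  have hk1 : 1 ≤ k := (one_le_div hq).mpr hqp
  have hk0 : 0 < k := by linarith
  have hqk : q * k = p := by rw [hk]; field_simp
  set N : ℝ := ‖u‖ ^ p + ‖v‖ ^ p with hN
  have hN0 : 0 ≤ N := by positivity
  rcases hN0.lt_or_eq with hNpos | hNz
  swap
  · have hu : ‖u‖ ^ p = 0 := by
      linarith [Real.rpow_nonneg (norm_nonneg u) p, Real.rpow_nonneg (norm_nonneg v) p]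
    have hv : ‖v‖ ^ p = 0 := by
      linarith [Real.rpow_nonneg (norm_nonneg u) p, Real.rpow_nonneg (norm_nonneg v) p]
    rw [Real.rpow_eq_zero (norm_nonneg _) hp.ne', norm_eq_zero] at hu hv
    simp [hu, hv, Real.zero_rpow hp.ne', hN]
  have hmean : (‖u‖ ^ q + ‖v‖ ^ q) / 2 ≤ (N / 2) ^ k⁻¹ := by
    have h0 : 0 ≤ (‖u‖ ^ q + ‖v‖ ^ q) / 2 := by positivity
    have h1 := Real.rpow_arith_mean_le_arith_mean_rpow Finset.univ
      ![(1 : ℝ) / 2, 1 / 2] ![‖u‖ ^ q, ‖v‖ ^ q]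
      (fun i _ => by fin_cases i <;> simp)
      (by simp [Fin.sum_univ_two]; norm_num)
      (fun i _ => by fin_cases i <;> simp [Real.rpow_nonneg]) hk1
    simp only [Fin.sum_univ_two, Matrix.cons_val_zero, Matrix.cons_val_one, Matrix.head_cons] at h1
    rw [← Real.rpow_mul (norm_nonneg u), ← Real.rpow_mul (norm_nonneg v), hqk] at h1
    have h2 : ((‖u‖ ^ q + ‖v‖ ^ q) / 2) ^ k ≤ N / 2 := by
      calc _ = (1 / 2 * ‖u‖ ^ q + 1 / 2 * ‖v‖ ^ q) ^ k := by congr 1; ring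
        _ ≤ _ := h1
        _ = N / 2 := by rw [hN]; ring
    calc _ = (((‖u‖ ^ q + ‖v‖ ^ q) / 2) ^ k) ^ k⁻¹ := by
          rw [← Real.rpow_mul h0, mul_inv_cancel₀ hk0.ne', Real.rpow_one]
      _ ≤ _ := Real.rpow_le_rpow (by positivity) h2 (inv_nonneg.mpr hk0.le)
  set M : ℝ := (2 : ℝ) ^ q * (N / 2) ^ k⁻¹ with hM
  have hM0 : 0 < M := by positivity
  have hMk : M ^ k = (2 : ℝ) ^ p * (N / 2) := by
    rw [hM, Real.mul_rpow (by positivity) (by positivity), ← Real.rpow_mul two_pos.le, hqk,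
      ← Real.rpow_mul (by positivity), inv_mul_cancel₀ hk0.ne', Real.rpow_one]
  have h2q : (2 : ℝ) ^ (q - 1) * (‖u‖ ^ q + ‖v‖ ^ q) ≤ M := by
    calc _ = (2 : ℝ) ^ q * ((‖u‖ ^ q + ‖v‖ ^ q) / 2) := by
          rw [Real.rpow_sub two_pos, Real.rpow_one]; ring
      _ ≤ _ := mul_le_mul_of_nonneg_left hmean (by positivity)
  set a : ℝ := ‖u + v‖ ^ q / M with ha
  set b : ℝ := ‖u - v‖ ^ q / M with hb
  have ha0 : 0 ≤ a := by positivity
  have hb0 : 0 ≤ b := by positivity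
  have h3 : a + K * b ≤ 1 := by
    rw [ha, hb, mul_div_assoc', ← add_div, div_le_one hM0]
    exact (hZ u v).trans h2q
  have h4 : b + K * a ≤ 1 := by
    rw [ha, hb, mul_div_assoc', ← add_div, div_le_one hM0]
    have := hZ u (-v)
    rw [norm_neg, sub_neg_eq_add, ← sub_eq_add_neg] at this
    exact this.trans h2q
  have h5 : a ^ k + b ^ k ≤ 1 := by
    rcases le_total b a with h | h
    · exact add_rpow_le_one hK hk1 hKp hb0 h h3
    · rw [add_comm]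
      exact add_rpow_le_one hK hk1 hKp ha0 h h4
  rw [ha, hb, Real.div_rpow (by positivity) hM0.le, Real.div_rpow (by positivity) hM0.le,
    ← add_div, div_le_one (by positivity), ← Real.rpow_mul (norm_nonneg _),
    ← Real.rpow_mul (norm_nonneg _), hqk, hMk] at h5
  refine h5.trans (le_of_eq ?_)
  rw [Real.rpow_sub two_pos, Real.rpow_one]
  ring

section lp

variable {ι : Type*}

theorem exists_close_rpow {p : ℝ} (hp : 0 < p) {ε : ℝ} (hε : 0 < ε) :
    ∃ δ : ℝ, 0 < δ ∧ ∀ r t : ℝ, 0 ≤ r → r < δ → 0 ≤ t → t ≤ 1 → (r + t) ^ p ≤ t ^ p + ε := by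
  have hcont : ContinuousOn (fun x : ℝ => x ^ p) (Set.Icc 0 2) :=
    (Real.continuous_rpow_const hp.le).continuousOn
  have hu := isCompact_Icc.uniformContinuousOn_of_continuous hcont
  rw [Metric.uniformContinuousOn_iff] at hu
  obtain ⟨δ, hδ, h⟩ := hu ε hε
  refine ⟨min δ 1, lt_min hδ one_pos, fun r t hr hrd ht0 ht1 => ?_⟩
  have hr1 : r < δ ∧ r < 1 := ⟨hrd.trans_le (min_le_left _ _), hrd.trans_le (min_le_right _ _)⟩
  have := h (r + t) ⟨by linarith, by linarith⟩ t ⟨ht0, by linarith⟩ (by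
    rw [Real.dist_eq, add_sub_cancel_right, abs_of_nonneg hr]; exact hr1.1)
  rw [Real.dist_eq, abs_lt] at this
  linarith

omit [NormedSpace ℝ Z] in
theorem clarkson_lp {p : ℝ} (hp : 0 < p) [Fact (1 ≤ ENNReal.ofReal p)]
    (hC : ∀ u v : Z, ‖u + v‖ ^ p + ‖u - v‖ ^ p ≤ (2 : ℝ) ^ (p - 1) * (‖u‖ ^ p + ‖v‖ ^ p))
    (u v : lp (fun _ : ι => Z) (ENNReal.ofReal p)) :
    ‖u + v‖ ^ p + ‖u - v‖ ^ p ≤ (2 : ℝ) ^ (p - 1) * (‖u‖ ^ p + ‖v‖ ^ p) := by
  have hP : (ENNReal.ofReal p).toReal = p := ENNReal.toReal_ofReal hp.le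
  have hP0 : 0 < (ENNReal.ofReal p).toReal := by rw [hP]; exact hp
  have h1 := lp.hasSum_norm hP0 (u + v)
  have h2 := lp.hasSum_norm hP0 (u - v)
  have h3 := lp.hasSum_norm hP0 u
  have h4 := lp.hasSum_norm hP0 v
  rw [hP] at h1 h2 h3 h4
  exact hasSum_le (fun i => by simpa using hC (u i) (v i)) (h1.add h2)
    ((h3.add h4).mul_left ((2 : ℝ) ^ (p - 1)))

theorem almost_orthogonal_lp [Infinite ι] [Nontrivial Z] {p : ℝ} (hp : 0 < p)
    [Fact (1 ≤ ENNReal.ofReal p)]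
    (S : Finset (lp (fun _ : ι => Z) (ENNReal.ofReal p))) (ε : ℝ) (hε : 0 < ε) :
    ∃ y : lp (fun _ : ι => Z) (ENNReal.ofReal p), ‖y‖ = 1 ∧
      ∀ v ∈ S, ∀ t : ℝ, 0 ≤ t → t ≤ 1 →
        ‖v + t • y‖ ^ p ≤ ‖v‖ ^ p + t ^ p + ε ∧ ‖v - t • y‖ ^ p ≤ ‖v‖ ^ p + t ^ p + ε := by
  classical
  have hP : (ENNReal.ofReal p).toReal = p := ENNReal.toReal_ofReal hp.le
  have hP0 : 0 < (ENNReal.ofReal p).toReal := by rw [hP]; exact hp
  obtain ⟨δ, hδ, hclose⟩ := exists_close_rpow hp hε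
  have hev : ∀ᶠ i in cofinite, ∀ v ∈ S, ‖(v : ι → Z) i‖ < δ := by
    rw [Filter.eventually_all_finset]
    intro v _
    have h1 := lp.hasSum_norm hP0 v
    rw [hP] at h1
    filter_upwards [h1.summable.tendsto_cofinite_zero.eventually
      (eventually_lt_nhds (Real.rpow_pos_of_pos hδ p))] with i hi
    exact (Real.rpow_lt_rpow_iff (norm_nonneg _) hδ.le hp).mp hi
  obtain ⟨i, hi⟩ := hev.exists
  obtain ⟨e, he⟩ := exists_norm_eq Z zero_le_one
  refine ⟨lp.single (E := fun _ : ι => Z) (ENNReal.ofReal p) i e, ?_, ?_⟩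
  · rw [lp.norm_single (ENNReal.ofReal_pos.mpr hp)]
    exact he
  have main : ∀ v ∈ S, ∀ w : Z, ‖w‖ ≤ 1 →
      ‖v + lp.single (E := fun _ : ι => Z) (ENNReal.ofReal p) i w‖ ^ p
        ≤ ‖v‖ ^ p + ‖w‖ ^ p + ε := by
    intro v hv w hw
    have h1 := lp.hasSum_norm hP0 v
    have h2 := lp.hasSum_norm hP0 (v + lp.single (E := fun _ : ι => Z) (ENNReal.ofReal p) i w)
    rw [hP] at h1 h2
    have h3 : HasSum (fun j => ‖(v : ι → Z) j‖ ^ p + if j = i then ‖w‖ ^ p + ε else 0)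
        (‖v‖ ^ p + (‖w‖ ^ p + ε)) := h1.add (hasSum_ite_eq i _)
    rw [add_assoc]
    refine hasSum_le (fun j => ?_) h2 h3
    by_cases hj : j = i
    · subst hj
      rw [if_pos rfl, lp.coeFn_add, Pi.add_apply, lp.single_apply_self]
      have h4 : ‖(v : ι → Z) j + w‖ ^ p ≤ (‖(v : ι → Z) j‖ + ‖w‖) ^ p :=
        Real.rpow_le_rpow (norm_nonneg _) (norm_add_le _ _) hp.le
      have h5 := hclose _ _ (norm_nonneg ((v : ι → Z) j)) (hi v hv) (norm_nonneg w) hw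
      have h6 : 0 ≤ ‖(v : ι → Z) j‖ ^ p := Real.rpow_nonneg (norm_nonneg _) p
      linarith
    · rw [if_neg hj, lp.coeFn_add, Pi.add_apply, lp.single_apply_ne _ _ _ hj, add_zero, add_zero]
  intro v hv t ht0 ht1
  have hn : ‖t • e‖ = t ∧ ‖(-t) • e‖ = t := by
    rw [norm_smul, norm_smul, he, mul_one, mul_one, norm_neg, Real.norm_of_nonneg ht0]
    exact ⟨rfl, rfl⟩
  constructor
  · have h := main v hv (t • e) (hn.1.le.trans ht1)
    rwa [lp.single_smul, hn.1] at h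
  · have h := main v hv ((-t) • e) (hn.2.le.trans ht1)
    rwa [lp.single_smul, hn.2, neg_smul, ← sub_eq_add_neg] at h

end lp

end Vale.Agent.P084.Asymp
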