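import Vale.Agent.P084.Asymp.PropM

/-!
# P084: closed subspaces of lp-sums of a finite-dimensional strictly convex space

They are uniformly convex and have property (m_p), for every real exponent greater than one.
-/

open Metric Filter Topology
open scoped ENNReal

namespace Vale.Agent.P084.Asymp

variable {Z : Type*} [NormedAddCommGroup Z] [NormedSpace ℝ Z]

theorem rpow_midpoint_lt [StrictConvexSpace ℝ Z] {p : ℝ} (hp : 1 < p) {u v : Z} (h : u ≠ v) :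
    ‖(2 : ℝ)⁻¹ • (u + v)‖ ^ p < (‖u‖ ^ p + ‖v‖ ^ p) / 2 := by
  have hp0 : 0 < p := by linarith
  rw [norm_smul, Real.norm_of_nonneg (by norm_num)]
  have hle : (2 : ℝ)⁻¹ * ‖u + v‖ ≤ (‖u‖ + ‖v‖) / 2 := by
    linarith [norm_add_le u v]
  rcases eq_or_ne ‖u‖ ‖v‖ with he | he
  · have hlt : (2 : ℝ)⁻¹ * ‖u + v‖ < ‖v‖ := by
      rcases (norm_add_le u v).lt_or_eq with h1 | h1
      · linarith
      · exact absurd (eq_of_norm_eq_of_norm_add_eq he h1) h
    rw [he]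
    linarith [Real.rpow_lt_rpow (by positivity) hlt hp0]
  · have h1 := (strictConvexOn_rpow hp).2 (norm_nonneg u) (norm_nonneg v) he
      (show (0 : ℝ) < 1 / 2 by norm_num) (show (0 : ℝ) < 1 / 2 by norm_num) (by norm_num)
    simp only [smul_eq_mul] at h1
    have h2 := Real.rpow_le_rpow (by positivity) hle hp0.le
    have h3 : ((‖u‖ + ‖v‖) / 2) ^ p = (1 / 2 * ‖u‖ + 1 / 2 * ‖v‖) ^ p := by congr 1; ring
    linarith

theorem exists_modulus [FiniteDimensional ℝ Z] [StrictConvexSpace ℝ Z] {p : ℝ} (hp : 1 < p)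
    {ε : ℝ} (hε : 0 < ε) :
    ∃ δ : ℝ, 0 < δ ∧ ∀ u v : Z, ε * (‖u‖ ^ p + ‖v‖ ^ p) ≤ ‖u - v‖ ^ p →
      δ * (‖u‖ ^ p + ‖v‖ ^ p) ≤ (‖u‖ ^ p + ‖v‖ ^ p) / 2 - ‖(2 : ℝ)⁻¹ • (u + v)‖ ^ p := by
  have hp0 : 0 < p := by linarith
  haveI : ProperSpace Z := FiniteDimensional.proper ℝ Z
  set K : Set (Z × Z) := {q | ‖q.1‖ ^ p + ‖q.2‖ ^ p = 1 ∧ ε ≤ ‖q.1 - q.2‖ ^ p} with hKdef
  have c1 : Continuous fun q : Z × Z => ‖q.1‖ ^ p + ‖q.2‖ ^ p :=
    (continuous_fst.norm.rpow_const fun _ => Or.inr hp0.le).add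
      (continuous_snd.norm.rpow_const fun _ => Or.inr hp0.le)
  have c2 : Continuous fun q : Z × Z => ‖q.1 - q.2‖ ^ p :=
    (continuous_fst.sub continuous_snd).norm.rpow_const fun _ => Or.inr hp0.le
  have c3 : Continuous fun q : Z × Z => ‖(2 : ℝ)⁻¹ • (q.1 + q.2)‖ ^ p :=
    ((continuous_fst.add continuous_snd).const_smul _).norm.rpow_const fun _ => Or.inr hp0.le
  have hK : IsCompact K := by
    refine Metric.isCompact_of_isClosed_isBounded
      ((isClosed_eq c1 continuous_const).inter (isClosed_le continuous_const c2)) ?_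
    refine (isBounded_iff_forall_norm_le).mpr ⟨1, fun q hq => ?_⟩
    have h1 : ∀ r : ℝ, 0 ≤ r → r ^ p ≤ 1 → r ≤ 1 := fun r hr h => by
      rw [← Real.one_rpow p] at h
      exact (Real.rpow_le_rpow_iff hr zero_le_one hp0).mp h
    rw [Prod.norm_def, max_le_iff]
    constructor
    · refine h1 _ (norm_nonneg _) ?_
      linarith [hq.1, Real.rpow_nonneg (norm_nonneg q.2) p]
    · refine h1 _ (norm_nonneg _) ?_
      linarith [hq.1, Real.rpow_nonneg (norm_nonneg q.1) p]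
  obtain ⟨δ, hδ, hmin⟩ := hK.exists_forall_le'
    ((c1.div_const 2).sub c3).continuousOn (a := (0 : ℝ)) (fun q hq => by
      have hne : q.1 ≠ q.2 := by
        intro h
        have := hq.2
        rw [h, sub_self, norm_zero, Real.zero_rpow hp0.ne'] at this
        linarith
      exact sub_pos.mpr (rpow_midpoint_lt hp hne))
  refine ⟨δ, hδ, fun u v huv => ?_⟩
  set S : ℝ := ‖u‖ ^ p + ‖v‖ ^ p with hS
  have hS0 : 0 ≤ S := by positivity
  rcases hS0.lt_or_eq with hSpos | hSz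
  swap
  · have hu : ‖u‖ ^ p = 0 := by
      linarith [Real.rpow_nonneg (norm_nonneg u) p, Real.rpow_nonneg (norm_nonneg v) p]
    have hv : ‖v‖ ^ p = 0 := by
      linarith [Real.rpow_nonneg (norm_nonneg u) p, Real.rpow_nonneg (norm_nonneg v) p]
    rw [Real.rpow_eq_zero (norm_nonneg _) hp0.ne', norm_eq_zero] at hu hv
    simp [hu, hv, Real.zero_rpow hp0.ne', hS]
  set c : ℝ := S ^ (-p⁻¹) with hc
  have hc0 : 0 < c := Real.rpow_pos_of_pos hSpos _
  have hcp : c ^ p = S⁻¹ := by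
    rw [hc, ← Real.rpow_mul hS0, neg_mul, inv_mul_cancel₀ hp0.ne', Real.rpow_neg_one]
  have hscale : ∀ w : Z, ‖c • w‖ ^ p = S⁻¹ * ‖w‖ ^ p := fun w => by
    rw [norm_smul, Real.norm_of_nonneg hc0.le, Real.mul_rpow hc0.le (norm_nonneg _), hcp]
  have h1 : δ ≤ (‖c • u‖ ^ p + ‖c • v‖ ^ p) / 2 - ‖(2 : ℝ)⁻¹ • (c • u + c • v)‖ ^ p :=
    hmin (c • u, c • v) ⟨by
    simp only [hscale]
    rw [← mul_add, ← hS, inv_mul_cancel₀ hSpos.ne'], by
    simp only [← smul_sub, hscale]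
    rwa [inv_mul_eq_div, le_div_iff₀ hSpos]⟩
  simp only [← smul_add, smul_comm (2 : ℝ)⁻¹ c, hscale] at h1
  rw [← mul_add, ← hS, mul_div_assoc, ← mul_sub, inv_mul_eq_div, le_div_iff₀ hSpos] at h1
  exact h1

section lp

variable {ι : Type*}

theorem uniformlyConvex_lp [FiniteDimensional ℝ Z] [StrictConvexSpace ℝ Z] {p : ℝ} (hp : 1 < p)
    [Fact (1 ≤ ENNReal.ofReal p)] :
    ∀ ε : ℝ, 0 < ε → ∃ δ : ℝ, 0 < δ ∧ ∀ x y : lp (fun _ : ι => Z) (ENNReal.ofReal p),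
      ‖x‖ ≤ 1 → ‖y‖ ≤ 1 → ε ≤ ‖x - y‖ → ‖x + y‖ ≤ 2 - δ := by
  intro ε hε
  have hp0 : 0 < p := by linarith
  have hP : (ENNReal.ofReal p).toReal = p := ENNReal.toReal_ofReal hp0.le
  have hP0 : 0 < (ENNReal.ofReal p).toReal := by rw [hP]; exact hp0
  set e : ℝ := ε ^ p with he
  have he0 : 0 < e := Real.rpow_pos_of_pos hε p
  obtain ⟨δ, hδ, hmod⟩ := exists_modulus (Z := Z) hp (show 0 < e / 4 by positivity)
  set κ : ℝ := e * δ / (2 : ℝ) ^ (p + 1) with hκ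
  have h2p : (0 : ℝ) < (2 : ℝ) ^ p := Real.rpow_pos_of_pos two_pos p
  have h2p1 : (2 : ℝ) ^ (p + 1) = (2 : ℝ) ^ p * 2 := by
    rw [Real.rpow_add two_pos, Real.rpow_one]
  have hκ0 : 0 < κ := by positivity
  set ρ : ℝ := (max (1 - κ) 0) ^ p⁻¹ with hρ
  have hρ1 : ρ < 1 := Real.rpow_lt_one (le_max_right _ _)
    (max_lt (by linarith) one_pos) (inv_pos.mpr hp0)
  refine ⟨2 - 2 * ρ, by linarith, fun x y hx hy hxy => ?_⟩
  set m : lp (fun _ : ι => Z) (ENNReal.ofReal p) := (2 : ℝ)⁻¹ • (x + y) with hm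
  have hsx := lp.hasSum_norm hP0 x
  have hsy := lp.hasSum_norm hP0 y
  have hsm := lp.hasSum_norm hP0 m
  have hsd := lp.hasSum_norm hP0 (x - y)
  rw [hP] at hsx hsy hsm hsd
  have hS := hsx.add hsy
  have hR := (hS.mul_left (e / 4)).add (((hS.div_const 2).sub hsm).mul_left ((2 : ℝ) ^ p / δ))
  have hkey := hasSum_le (fun i => ?_) hsd hR
  swap
  · simp only [hm, lp.coeFn_sub, lp.coeFn_smul, lp.coeFn_add, Pi.sub_apply, Pi.smul_apply,
      Pi.add_apply]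
    set u := (x : ι → Z) i
    set v := (y : ι → Z) i
    have hu : 0 ≤ ‖u‖ ^ p := Real.rpow_nonneg (norm_nonneg _) p
    have hv : 0 ≤ ‖v‖ ^ p := Real.rpow_nonneg (norm_nonneg _) p
    have hdef : 0 ≤ (‖u‖ ^ p + ‖v‖ ^ p) / 2 - ‖(2 : ℝ)⁻¹ • (u + v)‖ ^ p := by
      rcases eq_or_ne u v with heq | hne
      · rw [heq, ← two_smul ℝ v, smul_smul, inv_mul_cancel₀ two_ne_zero, one_smul]
        linarith
      · linarith [rpow_midpoint_lt hp hne]
    rcases lt_or_ge (‖u - v‖ ^ p) (e / 4 * (‖u‖ ^ p + ‖v‖ ^ p)) with hb | hg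
    · have : 0 ≤ (2 : ℝ) ^ p / δ *
          ((‖u‖ ^ p + ‖v‖ ^ p) / 2 - ‖(2 : ℝ)⁻¹ • (u + v)‖ ^ p) :=
        mul_nonneg (by positivity) hdef
      linarith
    · have h1 := hmod u v hg
      have h2 : ‖u - v‖ ^ p ≤ (2 : ℝ) ^ p * (‖u‖ ^ p + ‖v‖ ^ p) := by
        calc ‖u - v‖ ^ p ≤ (2 * max ‖u‖ ‖v‖) ^ p := by
              refine Real.rpow_le_rpow (norm_nonneg _) ?_ hp0.le
              linarith [norm_sub_le u v, le_max_left ‖u‖ ‖v‖, le_max_right ‖u‖ ‖v‖]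
          _ = (2 : ℝ) ^ p * (max ‖u‖ ‖v‖) ^ p :=
            Real.mul_rpow two_pos.le (le_max_of_le_left (norm_nonneg _))
          _ ≤ _ := by
            refine mul_le_mul_of_nonneg_left ?_ h2p.le
            rcases max_choice ‖u‖ ‖v‖ with h | h <;> rw [h] <;> linarith
      have h3 : (2 : ℝ) ^ p * (‖u‖ ^ p + ‖v‖ ^ p) ≤ (2 : ℝ) ^ p / δ *
          ((‖u‖ ^ p + ‖v‖ ^ p) / 2 - ‖(2 : ℝ)⁻¹ • (u + v)‖ ^ p) := by
        rw [div_mul_eq_mul_div, le_div_iff₀ hδ]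
        nlinarith
      have h4 : 0 ≤ e / 4 * (‖u‖ ^ p + ‖v‖ ^ p) := by positivity
      linarith
  have hx1 : ‖x‖ ^ p ≤ 1 := Real.rpow_le_one (norm_nonneg _) hx hp0.le
  have hy1 : ‖y‖ ^ p ≤ 1 := Real.rpow_le_one (norm_nonneg _) hy hp0.le
  have he1 : e ≤ ‖x - y‖ ^ p := Real.rpow_le_rpow hε.le hxy hp0.le
  have hmκ : ‖m‖ ^ p ≤ 1 - κ := by
    have h5 : e / 4 * (‖x‖ ^ p + ‖y‖ ^ p) ≤ e / 4 * 2 :=
      mul_le_mul_of_nonneg_left (by linarith) (by positivity)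
    have h6 : (2 : ℝ) ^ p / δ * ((‖x‖ ^ p + ‖y‖ ^ p) / 2 - ‖m‖ ^ p)
        ≤ (2 : ℝ) ^ p / δ * (1 - ‖m‖ ^ p) :=
      mul_le_mul_of_nonneg_left (by linarith) (by positivity)
    have h7 : e / 2 ≤ (2 : ℝ) ^ p / δ * (1 - ‖m‖ ^ p) := by linarith
    rw [div_mul_eq_mul_div, le_div_iff₀ hδ] at h7
    rw [hκ, h2p1, le_sub_iff_add_le, ← le_sub_iff_add_le', div_le_iff₀ (by positivity)]
    linarith
  have hm1 : ‖m‖ ≤ ρ := by
    rw [hρ, ← Real.rpow_rpow_inv (norm_nonneg m) hp0.ne']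
    exact Real.rpow_le_rpow (Real.rpow_nonneg (norm_nonneg _) p)
      (hmκ.trans (le_max_left _ _)) (inv_nonneg.mpr hp0.le)
  rw [hm, norm_smul, Real.norm_of_nonneg (by norm_num)] at hm1
  linarith

omit [NormedSpace ℝ Z] in
theorem rpow_norm_sub_rpow_norm {p : ℝ} (hp : 0 < p) [Fact (1 ≤ ENNReal.ofReal p)]
    (x y : lp (fun _ : ι => Z) (ENNReal.ofReal p)) (F : Finset ι)
    (h : ∀ i ∉ F, (x : ι → Z) i = (y : ι → Z) i) :
    ‖x‖ ^ p - ‖y‖ ^ p = ∑ i ∈ F, (‖(x : ι → Z) i‖ ^ p - ‖(y : ι → Z) i‖ ^ p) := by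
  have hP : (ENNReal.ofReal p).toReal = p := ENNReal.toReal_ofReal hp.le
  have hP0 : 0 < (ENNReal.ofReal p).toReal := by rw [hP]; exact hp
  have h1 := (lp.hasSum_norm hP0 x).sub (lp.hasSum_norm hP0 y)
  rw [hP] at h1
  exact h1.unique (hasSum_sum_of_ne_finset_zero fun i hi => by rw [h i hi, sub_self])

omit [NormedSpace ℝ Z] in
/-- Coordinatewise null bounded sequences are asymptotically p-orthogonal to everything. -/
theorem asymp_orth_of_coord {p : ℝ} (hp : 1 < p) [Fact (1 ≤ ENNReal.ofReal p)]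
    (α : ℕ → lp (fun _ : ι => Z) (ENNReal.ofReal p)) {B : ℝ} (hB : ∀ n, ‖α n‖ ≤ B)
    (h0 : ∀ i, Tendsto (fun n => (α n : ι → Z) i) atTop (𝓝 0))
    (w : lp (fun _ : ι => Z) (ENNReal.ofReal p)) :
    Tendsto (fun n => ‖w + α n‖ ^ p - ‖α n‖ ^ p) atTop (𝓝 (‖w‖ ^ p)) := by
  classical
  have hp0 : 0 < p := by linarith
  have hB0 : 0 ≤ B := (norm_nonneg _).trans (hB 0)
  rw [Metric.tendsto_nhds]
  intro ε hε
  have hu := (isCompact_Icc (a := (0 : ℝ)) (b := ‖w‖ + 1 + B)).uniformContinuousOn_of_continuous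
    (Real.continuous_rpow_const hp0.le).continuousOn
  rw [Metric.uniformContinuousOn_iff] at hu
  obtain ⟨η, hη, hcont⟩ := hu (ε / 3) (by positivity)
  -- truncate `w` to finitely many coordinates
  obtain ⟨F, hF⟩ := ((Metric.tendsto_nhds.mp (lp.hasSum_single ENNReal.ofReal_ne_top w))
    (min η 1) (lt_min hη one_pos)).exists
  set w' : lp (fun _ : ι => Z) (ENNReal.ofReal p) :=
    ∑ i ∈ F, lp.single (ENNReal.ofReal p) i ((w : ι → Z) i) with hw'
  rw [dist_eq_norm] at hF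
  have hwi : ∀ i ∉ F, (w' : ι → Z) i = 0 := fun i hi => by
    rw [hw', lp.coeFn_sum, Finset.sum_apply]
    exact Finset.sum_eq_zero fun j hj =>
      lp.single_apply_ne _ _ _ (fun h => hi (h ▸ hj))
  have hη' : ‖w' - w‖ < η ∧ ‖w' - w‖ < 1 :=
    ⟨hF.trans_le (min_le_left _ _), hF.trans_le (min_le_right _ _)⟩
  have hmain : Tendsto (fun n => ‖w' + α n‖ ^ p - ‖α n‖ ^ p) atTop (𝓝 (‖w'‖ ^ p)) := by
    have h1 : ∀ n, ‖w' + α n‖ ^ p - ‖α n‖ ^ p =
        ∑ i ∈ F, (‖(w' : ι → Z) i + (α n : ι → Z) i‖ ^ p - ‖(α n : ι → Z) i‖ ^ p) := fun n => by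
      rw [rpow_norm_sub_rpow_norm hp0 (w' + α n) (α n) F fun i hi => by
        rw [lp.coeFn_add, Pi.add_apply, hwi i hi, zero_add]]
      rfl
    have h2 : ‖w'‖ ^ p = ∑ i ∈ F, (‖(w' : ι → Z) i + 0‖ ^ p - ‖(0 : Z)‖ ^ p) := by
      have := rpow_norm_sub_rpow_norm hp0 w' 0 F fun i hi => by rw [hwi i hi]; rfl
      simpa [Real.zero_rpow hp0.ne'] using this
    rw [h2]
    simp only [h1]
    refine tendsto_finset_sum _ fun i _ => ?_
    exact (((h0 i).const_add _).norm.rpow_const (Or.inr hp0.le)).sub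
      ((h0 i).norm.rpow_const (Or.inr hp0.le))
  filter_upwards [Metric.tendsto_nhds.mp hmain (ε / 3) (by positivity)] with n hn
  have key : ∀ a b : lp (fun _ : ι => Z) (ENNReal.ofReal p),
      ‖a‖ ≤ ‖w‖ + 1 + B → ‖b‖ ≤ ‖w‖ + 1 + B → ‖a - b‖ < η →
      |‖a‖ ^ p - ‖b‖ ^ p| < ε / 3 := fun a b ha hb hab => by
    have := hcont ‖a‖ ⟨norm_nonneg _, ha⟩ ‖b‖ ⟨norm_nonneg _, hb⟩
      ((abs_norm_sub_norm_le a b).trans_lt hab)
    rwa [Real.dist_eq] at this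
  have hw'n : ‖w'‖ ≤ ‖w‖ + 1 := by
    linarith [norm_le_norm_add_norm_sub' w' w, hη'.2]
  have e1 := key (w + α n) (w' + α n)
    ((norm_add_le _ _).trans (by linarith [hB n]))
    ((norm_add_le _ _).trans (by linarith [hB n]))
    (by rw [add_sub_add_right_eq_sub, norm_sub_rev]; exact hη'.1)
  have e2 := key w' w (by linarith) (by linarith) hη'.1
  rw [Real.dist_eq, abs_lt] at hn ⊢
  rw [abs_lt] at e1 e2
  constructor <;> linarith

omit [NormedSpace ℝ Z] in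
/-- Coordinatewise compactness of bounded sequences. -/
theorem exists_coord_limit [ProperSpace Z] {p : ℝ} (hp : 0 < p) [Fact (1 ≤ ENNReal.ofReal p)]
    (a : ℕ → lp (fun _ : ι => Z) (ENNReal.ofReal p)) (R : ℝ) (hR : ∀ n, ‖a n‖ ≤ R) :
    ∃ φ : ℕ → ℕ, StrictMono φ ∧ ∃ u : lp (fun _ : ι => Z) (ENNReal.ofReal p),
      ∀ i, Tendsto (fun n => (a (φ n) : ι → Z) i) atTop (𝓝 ((u : ι → Z) i)) := by
  classical
  have hP : (ENNReal.ofReal p).toReal = p := ENNReal.toReal_ofReal hp.le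
  have hP0 : 0 < (ENNReal.ofReal p).toReal := by rw [hP]; exact hp
  set S : Set ι := ⋃ n, Function.support fun i => ‖(a n : ι → Z) i‖ ^ p with hS
  have hSc : S.Countable := Set.countable_iUnion fun n => by
    have h1 := (lp.hasSum_norm hP0 (a n)).summable
    rw [hP] at h1
    exact h1.countable_support
  haveI : Countable S := hSc.to_subtype
  have hcpt : IsCompact (Set.univ.pi fun _ : S => closedBall (0 : Z) R) :=
    isCompact_univ_pi fun _ => isCompact_closedBall _ _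
  obtain ⟨l, -, φ, hφ, hl⟩ := hcpt.tendsto_subseq (x := fun n (i : S) => (a n : ι → Z) i)
    fun n i _ => by
      rw [mem_closedBall_zero_iff]
      exact (lp.norm_apply_le_norm (ENNReal.ofReal_pos.mpr hp).ne' (a n) i).trans (hR n)
  rw [tendsto_pi_nhds] at hl
  set f : ι → Z := fun i => if h : i ∈ S then l ⟨i, h⟩ else 0 with hf
  have hcoord : ∀ i, Tendsto (fun n => (a (φ n) : ι → Z) i) atTop (𝓝 (f i)) := fun i => by
    by_cases h : i ∈ S
    · simp only [hf, dif_pos h]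
      exact hl ⟨i, h⟩
    · simp only [hf, dif_neg h]
      refine tendsto_const_nhds.congr fun n => ?_
      by_contra hne
      exact h (Set.mem_iUnion.mpr ⟨φ n, by
        rw [Function.mem_support]
        exact (Real.rpow_pos_of_pos (norm_pos_iff.mpr (Ne.symm hne)) p).ne'⟩)
  have hmem : Memℓp (E := fun _ : ι => Z) f (ENNReal.ofReal p) := by
    refine lp.memℓp_of_tendsto (F := fun n => a (φ n)) ?_ (l := atTop) ?_
    · exact isBounded_iff_forall_norm_le.mpr ⟨R, by rintro x ⟨n, rfl⟩; exact hR _⟩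
    · exact tendsto_pi_nhds.mpr hcoord
  exact ⟨φ, hφ, ⟨f, hmem⟩, hcoord⟩

/-- Property (m_p) of closed subspaces, with the centre inside the subspace. -/
theorem propM_submodule [ProperSpace Z] {p : ℝ} (hp : 1 < p) [Fact (1 ≤ ENNReal.ofReal p)]
    (W : Submodule ℝ (lp (fun _ : ι => Z) (ENNReal.ofReal p)))
    (hW : IsClosed (W : Set (lp (fun _ : ι => Z) (ENNReal.ofReal p))))
    (a : ℕ → W) (ha : ∃ R, ∀ n, ‖a n‖ ≤ R) :
    ∃ φ : ℕ → ℕ, StrictMono φ ∧ ∃ u : W,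
      ∀ w : W, Tendsto (fun n => ‖w + (a (φ n) - u)‖ ^ p - ‖a (φ n) - u‖ ^ p) atTop
        (𝓝 (‖w‖ ^ p)) := by
  have hp0 : 0 < p := by linarith
  obtain ⟨R, hR⟩ := ha
  obtain ⟨φ, hφ, u, hu⟩ := exists_coord_limit hp0
    (fun n => (a n : lp (fun _ : ι => Z) (ENNReal.ofReal p))) R fun n => hR n
  set α : ℕ → lp (fun _ : ι => Z) (ENNReal.ofReal p) :=
    fun n => (a (φ n) : lp (fun _ : ι => Z) (ENNReal.ofReal p)) - u with hα
  have hB : ∀ n, ‖α n‖ ≤ R + ‖u‖ := fun n =>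
    (norm_sub_le _ _).trans (add_le_add (hR (φ n)) (le_refl _))
  have hB0 : 0 ≤ R + ‖u‖ := (norm_nonneg _).trans (hB 0)
  have h0 : ∀ i, Tendsto (fun n => (α n : ι → Z) i) atTop (𝓝 0) := fun i => by
    have := (hu i).sub_const ((u : ι → Z) i)
    rwa [sub_self] at this
  have horth := asymp_orth_of_coord hp α hB h0
  -- the centre is a norm limit of averages from the subspace
  set C : ℝ := (R + ‖u‖) ^ p + 1 with hC
  have hC0 : 0 < C := by positivity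
  have avg : ∀ N : ℕ, ∃ v : lp (fun _ : ι => Z) (ENNReal.ofReal p),
      ‖v‖ ^ p ≤ (N : ℝ) * C ∧ v + (N : ℝ) • u ∈ W := by
    intro N
    induction N with
    | zero => exact ⟨0, by simp [Real.zero_rpow hp0.ne'], by simp⟩
    | succ N ih =>
      obtain ⟨v, hv, hvW⟩ := ih
      obtain ⟨n, hn⟩ := ((horth v).eventually
        (eventually_lt_nhds (show ‖v‖ ^ p < ‖v‖ ^ p + 1 by linarith))).exists
      refine ⟨v + α n, ?_, ?_⟩
      · have h1 := Real.rpow_le_rpow (norm_nonneg _) (hB n) hp0.le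
        push_cast
        linarith
      · have h2 : v + α n + ((N + 1 : ℕ) : ℝ) • u =
            (v + (N : ℝ) • u) + (a (φ n) : lp (fun _ : ι => Z) (ENNReal.ofReal p)) := by
          simp only [hα]
          push_cast
          module
        rw [h2]
        exact W.add_mem hvW (a (φ n)).2
  choose v hv hvW using fun N : ℕ => avg (N + 1)
  have hlim : Tendsto (fun N : ℕ => ((N : ℝ) + 1)⁻¹ • v N) atTop (𝓝 0) := by
    have h1 : Tendsto (fun N : ℕ => ((N : ℝ) + 1)) atTop atTop :=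
      tendsto_atTop_add_const_right _ 1 tendsto_natCast_atTop_atTop
    have h2 : Tendsto (fun N : ℕ => C ^ p⁻¹ * ((N : ℝ) + 1) ^ (-(1 - p⁻¹))) atTop (𝓝 0) := by
      simpa using ((tendsto_rpow_neg_atTop (show 0 < 1 - p⁻¹ by
        linarith [inv_lt_one_of_one_lt₀ hp])).comp h1).const_mul (C ^ p⁻¹)
    refine squeeze_zero_norm (fun N => ?_) h2
    have hN : (0 : ℝ) < (N : ℝ) + 1 := by positivity
    have h3 : ‖v N‖ ≤ (((N : ℝ) + 1) * C) ^ p⁻¹ := by
      rw [← Real.rpow_rpow_inv (norm_nonneg (v N)) hp0.ne']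
      refine Real.rpow_le_rpow (Real.rpow_nonneg (norm_nonneg _) p) ?_ (inv_nonneg.mpr hp0.le)
      have := hv N
      push_cast at this
      exact this
    rw [norm_smul, Real.norm_of_nonneg (by positivity)]
    calc ((N : ℝ) + 1)⁻¹ * ‖v N‖ ≤ ((N : ℝ) + 1)⁻¹ * (((N : ℝ) + 1) * C) ^ p⁻¹ :=
          mul_le_mul_of_nonneg_left h3 (by positivity)
      _ = _ := by
          rw [Real.mul_rpow hN.le hC0.le, neg_sub, Real.rpow_sub hN, Real.rpow_one]
          ring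
  have huW : u ∈ W := by
    refine hW.mem_of_tendsto (f := fun N : ℕ => ((N : ℝ) + 1)⁻¹ • v N + u) (b := atTop)
      (by simpa using hlim.add_const u) (Eventually.of_forall fun N => ?_)
    have h2 : ((N : ℝ) + 1)⁻¹ • v N + u =
        ((N : ℝ) + 1)⁻¹ • (v N + ((N + 1 : ℕ) : ℝ) • u) := by
      rw [smul_add, smul_smul, Nat.cast_add, Nat.cast_one, inv_mul_cancel₀ (by positivity),
        one_smul]
    rw [h2]
    exact W.smul_mem _ (hvW N)
  exact ⟨φ, hφ, ⟨u, huW⟩, fun w => horth w⟩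

/-- Infinite-dimensional closed subspaces of lp-sums of a strictly convex finite-dimensional
space satisfy the hypotheses of `extend_of_propM`. -/
theorem extend_lp_submodule [FiniteDimensional ℝ Z] [StrictConvexSpace ℝ Z] {p : ℝ} (hp : 1 < p)
    [Fact (1 ≤ ENNReal.ofReal p)]
    (W : Submodule ℝ (lp (fun _ : ι => Z) (ENNReal.ofReal p)))
    (hW : IsClosed (W : Set (lp (fun _ : ι => Z) (ENNReal.ofReal p))))
    (hinf : ¬ FiniteDimensional ℝ W)
    {Y : Type*} [NormedAddCommGroup Y] [NormedSpace ℝ Y]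
    (f : sphere (0 : W) 1 → sphere (0 : Y) 1) (hf : Isometry f) (hs : Function.Surjective f) :
    ∃ T : W ≃ₗᵢ[ℝ] Y, ∀ x : sphere (0 : W) 1, T x = f x := by
  haveI : ProperSpace Z := FiniteDimensional.proper ℝ Z
  refine extend_of_propM (by linarith) hinf (fun ε hε => ?_) (propM_submodule hp W hW) f hf hs
  obtain ⟨δ, hδ, h⟩ := uniformlyConvex_lp (ι := ι) (Z := Z) hp ε hε
  exact ⟨δ, hδ, fun x y hx hy hxy => h x y hx hy hxy⟩

end lp

end Vale.Agent.P084.Asymp
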