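import Vale.Agent.P084.Asymp.Extend

/-!
# P084: uniformly convex spaces with property (m_p)

In such a space every bounded sequence has a subsequence which, after subtracting a point, is
asymptotically p-orthogonal to everything.  Then images of midpoints of almost orthogonal pairs are
determined by the metric of the unit sphere, and the radial extension is an isometry.
-/

open Metric Filter Topology

namespace Vale.Agent.P084.Asymp

/-- The filter of iterated limits on pairs of indices. -/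
local instance curry_neBot : NeBot ((atTop : Filter ℕ).curry (atTop : Filter ℕ)) := by
  rw [neBot_iff]
  intro h
  have h2 : ∀ᶠ _q in (atTop : Filter ℕ).curry (atTop : Filter ℕ), False := by simp [h]
  rw [eventually_curry_iff] at h2
  obtain ⟨n, hn⟩ := h2.exists
  exact hn.exists.elim fun _ h => h

theorem tendsto_curry {d : ℕ → ℕ → ℝ} {e : ℕ → ℝ} {L : ℝ}
    (h : ∀ n, Tendsto (d n) atTop (𝓝 (e n))) (he : Tendsto e atTop (𝓝 L)) :
    Tendsto (fun q : ℕ × ℕ => d q.1 q.2) ((atTop : Filter ℕ).curry atTop) (𝓝 L) := by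
  rw [Metric.tendsto_nhds]
  intro ε hε
  rw [eventually_curry_iff]
  filter_upwards [Metric.tendsto_nhds.mp he (ε / 2) (half_pos hε)] with n hn
  filter_upwards [Metric.tendsto_nhds.mp (h n) (ε / 2) (half_pos hε)] with m hm
  calc dist (d n m) L ≤ dist (d n m) (e n) + dist (e n) L := dist_triangle _ _ _
    _ < ε := by linarith

theorem tendsto_fst_curry :
    Tendsto Prod.fst ((atTop : Filter ℕ).curry (atTop : Filter ℕ)) (atTop : Filter ℕ) :=
  tendsto_fst.mono_left curry_le_prod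

theorem tendsto_snd_curry :
    Tendsto Prod.snd ((atTop : Filter ℕ).curry (atTop : Filter ℕ)) (atTop : Filter ℕ) :=
  tendsto_snd.mono_left curry_le_prod

theorem tendsto_curry_subseq {φ : ℕ → ℕ} (hφ : StrictMono φ) :
    Tendsto (fun q : ℕ × ℕ => (φ q.1, φ q.2)) ((atTop : Filter ℕ).curry atTop)
      ((atTop : Filter ℕ).curry atTop) := by
  intro s hs
  rw [mem_map]
  have h1 : ∀ᶠ q in (atTop : Filter ℕ).curry (atTop : Filter ℕ), q ∈ s := hs
  rw [eventually_curry_iff] at h1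
  show ∀ᶠ q in (atTop : Filter ℕ).curry (atTop : Filter ℕ), (φ q.1, φ q.2) ∈ s
  rw [eventually_curry_iff]
  filter_upwards [hφ.tendsto_atTop.eventually h1] with n hn
  exact hφ.tendsto_atTop.eventually hn

theorem tendsto_norm_of_close' {E ι : Type*} [SeminormedAddCommGroup E] {l : Filter ι}
    {a b : ι → E} {L : ℝ} (h : Tendsto (fun n => ‖a n - b n‖) l (𝓝 0))
    (hb : Tendsto (fun n => ‖b n‖) l (𝓝 L)) : Tendsto (fun n => ‖a n‖) l (𝓝 L) := by
  have h1 : Tendsto (fun n => ‖a n‖ - ‖b n‖) l (𝓝 0) := by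
    refine squeeze_zero_norm (fun n => ?_) h
    rw [Real.norm_eq_abs]
    exact abs_norm_sub_norm_le _ _
  simpa using h1.add hb

theorem tendsto_pair_of_close {E : Type*} [SeminormedAddCommGroup E]
    {a a' b b' : ℕ → E} {L : ℝ}
    (ha : Tendsto (fun n => ‖a n - a' n‖) atTop (𝓝 0))
    (hb : Tendsto (fun n => ‖b n - b' n‖) atTop (𝓝 0))
    (h : Tendsto (fun q : ℕ × ℕ => ‖a' q.1 - b' q.2‖) ((atTop : Filter ℕ).curry atTop) (𝓝 L)) :
    Tendsto (fun q : ℕ × ℕ => ‖a q.1 - b q.2‖) ((atTop : Filter ℕ).curry atTop) (𝓝 L) := by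
  refine tendsto_norm_of_close' ?_ h
  refine squeeze_zero (fun q => norm_nonneg _) (fun q => ?_)
    (by simpa using (ha.comp tendsto_fst_curry).add (hb.comp tendsto_snd_curry))
  refine le_trans (le_of_eq ?_) (norm_sub_le _ _)
  congr 1
  abel

/-- `α` is asymptotically p-orthogonal to every vector and has asymptotic length `A`. -/
def AsympOrth {X : Type*} [SeminormedAddCommGroup X] (p : ℝ) (α : ℕ → X) (A : ℝ) : Prop :=
  ∀ w : X, Tendsto (fun n => ‖w + α n‖ ^ p) atTop (𝓝 (‖w‖ ^ p + A ^ p))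

theorem AsympOrth.comp {X : Type*} [SeminormedAddCommGroup X] {p A : ℝ} {α : ℕ → X}
    (h : AsympOrth p α A) {φ : ℕ → ℕ} (hφ : StrictMono φ) : AsympOrth p (α ∘ φ) A :=
  fun w => (h w).comp hφ.tendsto_atTop

theorem AsympOrth.tendsto_norm {X : Type*} [SeminormedAddCommGroup X] {p A : ℝ} (hp : 0 < p)
    (hA : 0 ≤ A) {α : ℕ → X} (h : AsympOrth p α A) :
    Tendsto (fun n => ‖α n‖) atTop (𝓝 A) := by
  have h1 := h 0
  simp only [zero_add, norm_zero, Real.zero_rpow hp.ne'] at h1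
  have h2 := tendsto_of_rpow_tendsto hp (fun n => norm_nonneg (α n)) h1
  rwa [← Real.rpow_mul hA, mul_inv_cancel₀ hp.ne', Real.rpow_one] at h2

theorem AsympOrth.tendsto_sub {X : Type*} [SeminormedAddCommGroup X] {p A : ℝ} {α : ℕ → X}
    (h : AsympOrth p α A) (w : X) :
    Tendsto (fun n => ‖w - α n‖ ^ p) atTop (𝓝 (‖w‖ ^ p + A ^ p)) := by
  have h1 := h (-w)
  rw [norm_neg] at h1
  refine h1.congr fun n => ?_
  rw [← norm_neg (w - α n), neg_sub, neg_add_eq_sub]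

variable {X : Type*} [NormedAddCommGroup X] [NormedSpace ℝ X]
variable {Y : Type*} [NormedAddCommGroup Y] [NormedSpace ℝ Y]

theorem exists_asympOrth {p : ℝ} (hp : 0 < p)
    (hM : ∀ a : ℕ → X, (∃ R, ∀ n, ‖a n‖ ≤ R) → ∃ φ : ℕ → ℕ, StrictMono φ ∧ ∃ u : X,
      ∀ w : X, Tendsto (fun n => ‖w + (a (φ n) - u)‖ ^ p - ‖a (φ n) - u‖ ^ p) atTop
        (𝓝 (‖w‖ ^ p)))
    (a : ℕ → X) (R : ℝ) (hR : ∀ n, ‖a n‖ ≤ R) :
    ∃ φ : ℕ → ℕ, StrictMono φ ∧ ∃ (u : X) (A : ℝ), 0 ≤ A ∧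
      AsympOrth p (fun n => a (φ n) - u) A := by
  obtain ⟨φ, hφ, u, hu⟩ := hM a ⟨R, hR⟩
  obtain ⟨A, hA, ψ, hψ, hlim⟩ := tendsto_subseq_of_bounded (Metric.isBounded_Icc 0 (R + ‖u‖))
    (x := fun n => ‖a (φ n) - u‖) (fun n => ⟨norm_nonneg _, (norm_sub_le _ _).trans (by
      linarith [hR (φ n)])⟩)
  rw [isClosed_Icc.closure_eq] at hA
  refine ⟨φ ∘ ψ, hφ.comp hψ, u, A, hA.1, fun w => ?_⟩
  have h1 := ((hu w).comp hψ.tendsto_atTop).add (hlim.rpow_const (p := p) (Or.inr hp.le))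
  simpa using h1

omit [NormedSpace ℝ X] in
/-- The mutual distances inside one sequence determine the asymptotic length. -/
theorem length_eq {p : ℝ} (hp : 0 < p) {a : ℕ → X} {u : X} {A σ : ℝ} (hA : 0 ≤ A) (hσ : 0 ≤ σ)
    (hu : AsympOrth p (fun n => a n - u) A)
    (h : Tendsto (fun q : ℕ × ℕ => ‖a q.1 - a q.2‖ ^ p) ((atTop : Filter ℕ).curry atTop)
      (𝓝 (2 * σ ^ p))) : A = σ := by
  have h1 : Tendsto (fun q : ℕ × ℕ => ‖a q.1 - a q.2‖ ^ p) ((atTop : Filter ℕ).curry atTop)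
      (𝓝 (A ^ p + A ^ p)) := by
    refine tendsto_curry (d := fun n m => ‖a n - a m‖ ^ p)
      (e := fun n => ‖a n - u‖ ^ p + A ^ p) (fun n => ?_)
      (((hu.tendsto_norm hp hA).rpow_const (p := p) (Or.inr hp.le)).add_const _)
    refine (hu.tendsto_sub (a n - u)).congr fun m => ?_
    rw [sub_sub_sub_cancel_right]
  have h2 := tendsto_nhds_unique h1 h
  exact (Real.rpow_left_inj hA hσ hp.ne').mp (by linarith)

omit [NormedSpace ℝ X] in
/-- The mutual distances between two sequences determine the distance of their centres. -/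
theorem centre_eq {p : ℝ} (hp : 0 < p) {a c : ℕ → X} {u v : X} {σ : ℝ}
    (hu : AsympOrth p (fun n => a n - u) σ) (hv : AsympOrth p (fun n => c n - v) σ)
    (h : Tendsto (fun q : ℕ × ℕ => ‖a q.1 - c q.2‖ ^ p) ((atTop : Filter ℕ).curry atTop)
      (𝓝 (2 * σ ^ p))) : u = v := by
  have h1 : Tendsto (fun q : ℕ × ℕ => ‖a q.1 - c q.2‖ ^ p)
      ((atTop : Filter ℕ).curry atTop) (𝓝 (‖u - v‖ ^ p + σ ^ p + σ ^ p)) := by
    refine tendsto_curry (d := fun n m => ‖a n - c m‖ ^ p)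
      (e := fun n => ‖(u - v) + (a n - u)‖ ^ p + σ ^ p) (fun n => ?_)
      ((hu (u - v)).add_const _)
    refine (hv.tendsto_sub ((u - v) + (a n - u))).congr fun m => ?_
    congr 2
    abel
  have h2 := tendsto_nhds_unique h1 h
  have h3 : ‖u - v‖ ^ p = 0 := by linarith
  rwa [Real.rpow_eq_zero (norm_nonneg _) hp.ne', norm_sub_eq_zero_iff] at h3

/-- Uniform convexity turns maximal distance into antipodality. -/
theorem tendsto_add_zero
    (hUC : ∀ ε : ℝ, 0 < ε → ∃ δ : ℝ, 0 < δ ∧ ∀ x y : X, ‖x‖ ≤ 1 → ‖y‖ ≤ 1 → ε ≤ ‖x - y‖ →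
      ‖x + y‖ ≤ 2 - δ)
    {α γ : ℕ → X} {σ : ℝ} (hσ : 0 < σ) (hα : Tendsto (fun n => ‖α n‖) atTop (𝓝 σ))
    (hγ : Tendsto (fun n => ‖γ n‖) atTop (𝓝 σ))
    (hd : Tendsto (fun n => ‖α n - γ n‖) atTop (𝓝 (2 * σ))) :
    Tendsto (fun n => ‖α n + γ n‖) atTop (𝓝 0) := by
  rw [Metric.tendsto_nhds]
  intro ε hε
  obtain ⟨δ, hδ, hδ'⟩ := hUC (ε / (2 * σ)) (by positivity)
  obtain ⟨η, hη, hη1, hη2⟩ : ∃ η : ℝ, 0 < η ∧ η ≤ σ ∧ η * 4 ≤ σ * δ :=
    ⟨min σ (σ * δ / 4), lt_min hσ (by positivity), min_le_left _ _, by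
      linarith [min_le_right σ (σ * δ / 4)]⟩
  filter_upwards [hα.eventually (eventually_le_nhds (show σ < σ + η by linarith)),
    hγ.eventually (eventually_le_nhds (show σ < σ + η by linarith)),
    hd.eventually (eventually_gt_nhds (show 2 * σ - η < 2 * σ by linarith))] with n h1 h2 h3
  rw [Real.dist_eq, sub_zero, abs_norm]
  by_contra hlt
  push Not at hlt
  have hr : 0 < σ + η := by linarith
  have hnorm : ∀ x : X, ‖(σ + η)⁻¹ • x‖ = ‖x‖ / (σ + η) := fun x => by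
    rw [norm_smul, Real.norm_of_nonneg (by positivity), inv_mul_eq_div]
  have h4 := hδ' ((σ + η)⁻¹ • α n) ((σ + η)⁻¹ • -γ n)
    (by rw [hnorm, div_le_one hr]; exact h1)
    (by rw [hnorm, norm_neg, div_le_one hr]; exact h2)
    (by
      rw [← smul_sub, sub_neg_eq_add, hnorm]
      refine le_trans ?_ (div_le_div_of_nonneg_right hlt hr.le)
      exact div_le_div_of_nonneg_left hε.le hr (by linarith))
  rw [← smul_add, ← sub_eq_add_neg, hnorm, div_le_iff₀ hr] at h4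
  nlinarith [mul_nonneg hη.le hδ.le]

/-- The p-orthogonal decomposition of two unit sequences with prescribed mutual distances. -/
theorem asymptotic_midpoint {p : ℝ} (hp : 0 < p)
    (hUC : ∀ ε : ℝ, 0 < ε → ∃ δ : ℝ, 0 < δ ∧ ∀ x y : X, ‖x‖ ≤ 1 → ‖y‖ ≤ 1 → ε ≤ ‖x - y‖ →
      ‖x + y‖ ≤ 2 - δ)
    (hM : ∀ a : ℕ → X, (∃ R, ∀ n, ‖a n‖ ≤ R) → ∃ φ : ℕ → ℕ, StrictMono φ ∧ ∃ u : X,
      ∀ w : X, Tendsto (fun n => ‖w + (a (φ n) - u)‖ ^ p - ‖a (φ n) - u‖ ^ p) atTop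
        (𝓝 (‖w‖ ^ p)))
    {a c : ℕ → X} (ha : ∀ n, ‖a n‖ = 1) (hc : ∀ n, ‖c n‖ = 1) {σ : ℝ} (hσ : 0 < σ)
    (haa : Tendsto (fun q : ℕ × ℕ => ‖a q.1 - a q.2‖ ^ p) ((atTop : Filter ℕ).curry atTop)
      (𝓝 (2 * σ ^ p)))
    (hcc : Tendsto (fun q : ℕ × ℕ => ‖c q.1 - c q.2‖ ^ p) ((atTop : Filter ℕ).curry atTop)
      (𝓝 (2 * σ ^ p)))
    (hac : Tendsto (fun q : ℕ × ℕ => ‖a q.1 - c q.2‖ ^ p) ((atTop : Filter ℕ).curry atTop)
      (𝓝 (2 * σ ^ p)))
    (hd : Tendsto (fun n => ‖a n - c n‖) atTop (𝓝 (2 * σ))) :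
    ∃ φ : ℕ → ℕ, StrictMono φ ∧ ∃ u : X, ‖u‖ ^ p = 1 - σ ^ p ∧
      Tendsto (fun n => ‖a (φ n) + c (φ n)‖) atTop (𝓝 (2 * ‖u‖)) := by
  obtain ⟨φ₁, hφ₁, u, A, hA, hu⟩ := exists_asympOrth hp hM a 1 fun n => (ha n).le
  obtain ⟨φ₂, hφ₂, v, C, hC, hv⟩ :=
    exists_asympOrth hp hM (fun n => c (φ₁ n)) 1 fun n => (hc _).le
  have hφ : StrictMono (fun n => φ₁ (φ₂ n)) := hφ₁.comp hφ₂
  have huα : AsympOrth p (fun n => a (φ₁ (φ₂ n)) - u) A :=
    fun w => (hu w).comp hφ₂.tendsto_atTop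
  have haa' : Tendsto (fun q : ℕ × ℕ => ‖a (φ₁ (φ₂ q.1)) - a (φ₁ (φ₂ q.2))‖ ^ p)
      ((atTop : Filter ℕ).curry atTop) (𝓝 (2 * σ ^ p)) :=
    (haa.comp (tendsto_curry_subseq hφ)).congr fun _ => rfl
  have hcc' : Tendsto (fun q : ℕ × ℕ => ‖c (φ₁ (φ₂ q.1)) - c (φ₁ (φ₂ q.2))‖ ^ p)
      ((atTop : Filter ℕ).curry atTop) (𝓝 (2 * σ ^ p)) :=
    (hcc.comp (tendsto_curry_subseq hφ)).congr fun _ => rfl
  have hac' : Tendsto (fun q : ℕ × ℕ => ‖a (φ₁ (φ₂ q.1)) - c (φ₁ (φ₂ q.2))‖ ^ p)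
      ((atTop : Filter ℕ).curry atTop) (𝓝 (2 * σ ^ p)) :=
    (hac.comp (tendsto_curry_subseq hφ)).congr fun _ => rfl
  have hAσ : A = σ := length_eq (a := fun n => a (φ₁ (φ₂ n))) (u := u) hp hA hσ.le huα haa'
  have hCσ : C = σ := length_eq (a := fun n => c (φ₁ (φ₂ n))) (u := v) hp hC hσ.le hv hcc'
  subst hAσ
  rw [hCσ] at hv hC
  have huv : u = v :=
    centre_eq (a := fun n => a (φ₁ (φ₂ n))) (c := fun n => c (φ₁ (φ₂ n))) hp huα hv hac'
  subst huv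
  refine ⟨fun n => φ₁ (φ₂ n), hφ, u, ?_, ?_⟩
  · have h1 : Tendsto (fun n => ‖u + (a (φ₁ (φ₂ n)) - u)‖ ^ p) atTop (𝓝 (1 : ℝ)) := by
      simp [ha]
    have := tendsto_nhds_unique (huα u) h1
    linarith
  · have hd' : Tendsto (fun n => ‖(a (φ₁ (φ₂ n)) - u) - (c (φ₁ (φ₂ n)) - u)‖) atTop
        (𝓝 (2 * A)) := by
      refine (hd.comp hφ.tendsto_atTop).congr fun n => ?_
      rw [Function.comp_apply, sub_sub_sub_cancel_right]
    have hsum := tendsto_add_zero hUC hσ (huα.tendsto_norm hp hσ.le) (hv.tendsto_norm hp hσ.le) hd'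
    refine tendsto_norm_of_close (b := fun _ => (2 : ℝ) • u) ?_ ?_
    · refine hsum.congr fun n => ?_
      congr 1
      module
    · simp [norm_smul]

theorem normalised_close {g : ℕ → Y} {w : ℕ → Y} {D : ℝ} (hD0 : 0 < D)
    (hw : ∀ n, g n ≠ 0 → w n = ‖g n‖⁻¹ • g n) (hg : Tendsto (fun n => ‖g n‖) atTop (𝓝 D)) :
    Tendsto (fun n => ‖w n - D⁻¹ • g n‖) atTop (𝓝 0) := by
  have h3 : Tendsto (fun n => |1 - D⁻¹ * ‖g n‖|) atTop (𝓝 0) := by
    have := ((hg.const_mul D⁻¹).const_sub 1).abs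
    rwa [inv_mul_cancel₀ hD0.ne', sub_self, abs_zero] at this
  refine h3.congr' ?_
  filter_upwards [hg.eventually (eventually_gt_nhds hD0)] with n hn
  rw [hw n (norm_pos_iff.mp hn), ← sub_smul, norm_smul, Real.norm_eq_abs]
  nth_rewrite 3 [← abs_of_pos hn]
  rw [← abs_mul, sub_mul, inv_mul_cancel₀ hn.ne']

theorem transfer_dist {p : ℝ} (hp : 0 < p)
    {f : sphere (0 : X) 1 → sphere (0 : Y) 1} (hf : Isometry f)
    {D s : ℝ} (hD0 : 0 < D) (hs0 : 0 ≤ s) (w : Y)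
    {g g' b b' : ℕ → sphere (0 : X) 1} {q q' : ℕ → X}
    (hb : Tendsto (fun n => ‖(f (b n) : Y) - D⁻¹ • (w - f (g n))‖) atTop (𝓝 0))
    (hb' : Tendsto (fun n => ‖(f (b' n) : Y) - D⁻¹ • (w - f (g' n))‖) atTop (𝓝 0))
    (hg : Tendsto (fun n => ‖(g n : X) - q n‖) atTop (𝓝 0))
    (hg' : Tendsto (fun n => ‖(g' n : X) - q' n‖) atTop (𝓝 0))
    (hq : Tendsto (fun k : ℕ × ℕ => ‖q k.1 - q' k.2‖ ^ p) ((atTop : Filter ℕ).curry atTop)
      (𝓝 (2 * s ^ p))) :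
    Tendsto (fun k : ℕ × ℕ => ‖(b k.1 : X) - b' k.2‖ ^ p) ((atTop : Filter ℕ).curry atTop)
      (𝓝 (2 * (s / D) ^ p)) := by
  have h3 := hq.rpow_const (p := p⁻¹) (Or.inr (inv_nonneg.mpr hp.le))
  have h4 : Tendsto (fun k : ℕ × ℕ => ‖q k.1 - q' k.2‖) ((atTop : Filter ℕ).curry atTop)
      (𝓝 ((2 * s ^ p) ^ p⁻¹)) := by
    refine h3.congr fun k => ?_
    rw [← Real.rpow_mul (norm_nonneg _), mul_inv_cancel₀ hp.ne', Real.rpow_one]
  have h5 : Tendsto (fun k : ℕ × ℕ => ‖D⁻¹ • (w - f (g k.1)) - D⁻¹ • (w - f (g' k.2))‖)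
      ((atTop : Filter ℕ).curry atTop) (𝓝 (D⁻¹ * (2 * s ^ p) ^ p⁻¹)) := by
    refine ((tendsto_pair_of_close (a := fun n => (g n : X)) (b := fun n => (g' n : X))
      hg hg' h4).const_mul D⁻¹).congr fun k => ?_
    rw [← smul_sub, sub_sub_sub_cancel_left, norm_smul, Real.norm_of_nonneg (by positivity),
      norm_map_sub hf, norm_sub_rev]
  have h6 := (tendsto_pair_of_close (a := fun n => (f (b n) : Y))
    (b := fun n => (f (b' n) : Y)) (a' := fun n => D⁻¹ • (w - f (g n)))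
    (b' := fun n => D⁻¹ • (w - f (g' n))) hb hb' h5).rpow_const (p := p) (Or.inr hp.le)
  have h7 : (D⁻¹ * (2 * s ^ p) ^ p⁻¹) ^ p = 2 * (s / D) ^ p := by
    rw [Real.mul_rpow (by positivity) (by positivity), ← Real.rpow_mul (by positivity),
      inv_mul_cancel₀ hp.ne', Real.rpow_one, Real.div_rpow hs0 hD0.le,
      Real.inv_rpow hD0.le]
    ring
  rw [h7] at h6
  refine h6.congr fun k => ?_
  rw [norm_map_sub hf]

omit [NormedSpace ℝ X] in
theorem curry_two_mul {p : ℝ} (hp : 0 < p) {s : ℝ} {α : ℕ → X}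
    (hαn : Tendsto (fun n => ‖α n‖) atTop (𝓝 s)) (F : ℕ → ℕ → ℝ)
    (hF : ∀ n, Tendsto (F n) atTop (𝓝 (‖α n‖ ^ p + s ^ p))) :
    Tendsto (fun k : ℕ × ℕ => F k.1 k.2) ((atTop : Filter ℕ).curry atTop)
      (𝓝 (2 * s ^ p)) := by
  rw [two_mul]
  exact tendsto_curry hF ((hαn.rpow_const (p := p) (Or.inr hp.le)).add_const _)

/-- The main step: for one point `β`, along a subsequence the midpoint of the images is at the
distance prescribed by linearity. -/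
theorem midpoint_dist {p : ℝ} (hp : 0 < p)
    (hUC : ∀ ε : ℝ, 0 < ε → ∃ δ : ℝ, 0 < δ ∧ ∀ x y : X, ‖x‖ ≤ 1 → ‖y‖ ≤ 1 → ε ≤ ‖x - y‖ →
      ‖x + y‖ ≤ 2 - δ)
    (hstrict : ∀ u v : X, ‖u‖ = 1 → ‖v‖ = 1 → ‖u + v‖ = 2 → u = v)
    (hM : ∀ a : ℕ → X, (∃ R, ∀ n, ‖a n‖ ≤ R) → ∃ φ : ℕ → ℕ, StrictMono φ ∧ ∃ u : X,
      ∀ w : X, Tendsto (fun n => ‖w + (a (φ n) - u)‖ ^ p - ‖a (φ n) - u‖ ^ p) atTop
        (𝓝 (‖w‖ ^ p)))
    {f : sphere (0 : X) 1 → sphere (0 : Y) 1} (hf : Isometry f) (hs : Function.Surjective f)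
    {x : X} {α : ℕ → X} {s : ℝ} (hs0 : 0 < s) (hα : AsympOrth p α s)
    {c₁ c₂ : ℕ → sphere (0 : X) 1}
    (h1 : Tendsto (fun n => ‖(c₁ n : X) - (x + α n)‖) atTop (𝓝 0))
    (h2 : Tendsto (fun n => ‖(c₂ n : X) - (x - α n)‖) atTop (𝓝 0))
    (β : sphere (0 : X) 1) :
    ∃ φ : ℕ → ℕ, StrictMono φ ∧
      Tendsto (fun n => ‖(f β : Y) - (2 : ℝ)⁻¹ • ((f (c₁ (φ n)) : Y) + f (c₂ (φ n)))‖) atTop
        (𝓝 ‖x - β‖) := by
  classical
  have hαn := hα.tendsto_norm hp hs0.le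
  set r : ℝ := ‖x - (β : X)‖ with hr
  set D : ℝ := (r ^ p + s ^ p) ^ p⁻¹ with hD
  have hr0 : 0 ≤ r := norm_nonneg _
  have hrs : 0 < r ^ p + s ^ p :=
    add_pos_of_nonneg_of_pos (Real.rpow_nonneg hr0 _) (Real.rpow_pos_of_pos hs0 _)
  have hD0 : 0 < D := Real.rpow_pos_of_pos hrs _
  have hDp : D ^ p = r ^ p + s ^ p := by
    rw [hD, ← Real.rpow_mul hrs.le, inv_mul_cancel₀ hp.ne', Real.rpow_one]
  have hlim₁ : Tendsto (fun n => ‖(f β : Y) - f (c₁ n)‖) atTop (𝓝 D) := by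
    refine (tendsto_norm_of_close (a := fun n => (c₁ n : X) - β)
      (b := fun n => x - β + α n) ?_
      (tendsto_of_rpow_tendsto hp (fun n => norm_nonneg _) (hα (x - β)))).congr fun n => ?_
    · refine h1.congr fun n => ?_
      congr 1
      abel
    · rw [norm_map_sub hf, norm_sub_rev]
  have hlim₂ : Tendsto (fun n => ‖(f β : Y) - f (c₂ n)‖) atTop (𝓝 D) := by
    refine (tendsto_norm_of_close (a := fun n => (c₂ n : X) - β)
      (b := fun n => x - β - α n) ?_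
      (tendsto_of_rpow_tendsto hp (fun n => norm_nonneg _) (hα.tendsto_sub (x - β)))).congr
        fun n => ?_
    · refine h2.congr fun n => ?_
      congr 1
      abel
    · rw [norm_map_sub hf, norm_sub_rev]
  -- normalised differences and their preimages
  set a : ℕ → sphere (0 : X) 1 := fun n => if h : (f β : Y) - f (c₁ n) = 0 then β else
    (hs ⟨‖(f β : Y) - f (c₁ n)‖⁻¹ • ((f β : Y) - f (c₁ n)), by simp [norm_smul, h]⟩).choose
    with ha
  set c : ℕ → sphere (0 : X) 1 := fun n => if h : (f β : Y) - f (c₂ n) = 0 then β else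
    (hs ⟨‖(f β : Y) - f (c₂ n)‖⁻¹ • ((f β : Y) - f (c₂ n)), by simp [norm_smul, h]⟩).choose
    with hc
  have ca : Tendsto (fun n => ‖(f (a n) : Y) - D⁻¹ • ((f β : Y) - f (c₁ n))‖) atTop (𝓝 0) := by
    refine normalised_close (w := fun n => (f (a n) : Y)) hD0 (fun n hn => ?_) hlim₁
    simp only [ha, dif_neg hn]
    rw [(hs _).choose_spec]
  have cc : Tendsto (fun n => ‖(f (c n) : Y) - D⁻¹ • ((f β : Y) - f (c₂ n))‖) atTop (𝓝 0) := by
    refine normalised_close (w := fun n => (f (c n) : Y)) hD0 (fun n hn => ?_) hlim₂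
    simp only [hc, dif_neg hn]
    rw [(hs _).choose_spec]
  set σ : ℝ := s / D with hσ
  have hσ0 : 0 < σ := by positivity
  -- transfer of the mutual distances
  have haa := transfer_dist hp hf hD0 hs0.le (f β : Y) ca ca h1 h1
    (curry_two_mul hp hαn (fun n m => ‖(x + α n) - (x + α m)‖ ^ p) fun n =>
      (hα.tendsto_sub (α n)).congr fun m => by rw [add_sub_add_left_eq_sub])
  have hcc := transfer_dist hp hf hD0 hs0.le (f β : Y) cc cc h2 h2
    (curry_two_mul hp hαn (fun n m => ‖(x - α n) - (x - α m)‖ ^ p) fun n =>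
      (hα.tendsto_sub (α n)).congr fun m => by
        rw [sub_sub_sub_cancel_left, norm_sub_rev (α n)])
  have hac := transfer_dist hp hf hD0 hs0.le (f β : Y) ca cc h1 h2
    (curry_two_mul hp hαn (fun n m => ‖(x + α n) - (x - α m)‖ ^ p) fun n =>
      (hα (α n)).congr fun m => by congr 2; abel)
  have hd : Tendsto (fun n => ‖(a n : X) - c n‖) atTop (𝓝 (2 * σ)) := by
    have h3 : Tendsto (fun n => ‖D⁻¹ • ((f β : Y) - f (c₁ n)) - D⁻¹ • ((f β : Y) - f (c₂ n))‖)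
        atTop (𝓝 (D⁻¹ * (2 * s))) := by
      have h4 : Tendsto (fun n => ‖(c₁ n : X) - c₂ n‖) atTop (𝓝 (2 * s)) := by
        refine tendsto_norm_of_close (b := fun n => (2 : ℝ) • α n) ?_ ?_
        · refine squeeze_zero (fun n => norm_nonneg _) (fun n => ?_) (by simpa using h1.add h2)
          refine le_trans (le_of_eq ?_) (norm_sub_le _ _)
          congr 1
          module
        · simpa [norm_smul] using hαn.const_mul 2
      refine (h4.const_mul D⁻¹).congr fun n => ?_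
      rw [← smul_sub, sub_sub_sub_cancel_left, norm_smul, Real.norm_of_nonneg (by positivity),
        norm_map_sub hf, norm_sub_rev]
    rw [show 2 * σ = D⁻¹ * (2 * s) by rw [hσ]; ring]
    refine (tendsto_norm_of_close (a := fun n => (f (a n) : Y) - f (c n)) ?_ h3).congr fun n => ?_
    · refine squeeze_zero (fun n => norm_nonneg _) (fun n => ?_) (by simpa using ca.add cc)
      refine le_trans (le_of_eq ?_) (norm_sub_le _ _)
      congr 1
      abel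
    · rw [norm_map_sub hf]
  obtain ⟨φ, hφ, u, hu, hlim⟩ := asymptotic_midpoint hp hUC hM
    (fun n => norm_coe_sphere (a n)) (fun n => norm_coe_sphere (c n)) hσ0 haa hcc hac hd
  refine ⟨φ, hφ, ?_⟩
  have hu' : D * ‖u‖ = r := by
    refine (Real.rpow_left_inj (by positivity) hr0 hp.ne').mp ?_
    rw [Real.mul_rpow hD0.le (norm_nonneg _), hu, hσ, Real.div_rpow hs0.le hD0.le, mul_sub,
      mul_one, mul_div_cancel₀ _ (Real.rpow_pos_of_pos hD0 p).ne', hDp]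
    ring
  have hpair : ∀ n, ‖(f (a n) : Y) + f (c n)‖ = ‖(a n : X) + c n‖ := fun n => by
    have := norm_map_sub hf (a n) (opp (c n))
    rwa [map_opp hstrict hf hs, coe_opp, sub_neg_eq_add, sub_neg_eq_add] at this
  have h5 : Tendsto (fun n => ‖D⁻¹ • ((f β : Y) - f (c₁ (φ n))) +
      D⁻¹ • ((f β : Y) - f (c₂ (φ n)))‖) atTop (𝓝 (2 * ‖u‖)) := by
    refine tendsto_norm_of_close (b := fun n => (f (a (φ n)) : Y) + f (c (φ n))) ?_
      (hlim.congr fun n => (hpair _).symm)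
    refine squeeze_zero (fun n => norm_nonneg _) (fun n => ?_)
      (by simpa using (ca.comp hφ.tendsto_atTop).add (cc.comp hφ.tendsto_atTop))
    rw [norm_sub_rev]
    refine le_trans (le_of_eq ?_) (norm_add_le _ _)
    congr 1
    abel
  have h6 := h5.const_mul (D / 2)
  rw [show D / 2 * (2 * ‖u‖) = r by rw [← hu']; ring] at h6
  refine h6.congr fun n => ?_
  rw [← smul_add, norm_smul, Real.norm_of_nonneg (by positivity),
    show (f β : Y) - (2 : ℝ)⁻¹ • ((f (c₁ (φ n)) : Y) + f (c₂ (φ n)))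
      = (2 : ℝ)⁻¹ • (((f β : Y) - f (c₁ (φ n))) + ((f β : Y) - f (c₂ (φ n)))) by module,
    norm_smul, Real.norm_of_nonneg (by positivity)]
  field_simp

/-- Uniformly convex infinite-dimensional spaces with property (m_p) have the Mazur-Ulam
property. -/
theorem extend_of_propM {p : ℝ} (hp : 0 < p)
    (hinf : ¬ FiniteDimensional ℝ X)
    (hUC : ∀ ε : ℝ, 0 < ε → ∃ δ : ℝ, 0 < δ ∧ ∀ x y : X, ‖x‖ ≤ 1 → ‖y‖ ≤ 1 → ε ≤ ‖x - y‖ →
      ‖x + y‖ ≤ 2 - δ)
    (hM : ∀ a : ℕ → X, (∃ R, ∀ n, ‖a n‖ ≤ R) → ∃ φ : ℕ → ℕ, StrictMono φ ∧ ∃ u : X,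
      ∀ w : X, Tendsto (fun n => ‖w + (a (φ n) - u)‖ ^ p - ‖a (φ n) - u‖ ^ p) atTop
        (𝓝 (‖w‖ ^ p)))
    (f : sphere (0 : X) 1 → sphere (0 : Y) 1) (hf : Isometry f) (hs : Function.Surjective f) :
    ∃ T : X ≃ₗᵢ[ℝ] Y, ∀ x : sphere (0 : X) 1, T x = f x := by
  classical
  have hstrict : ∀ u v : X, ‖u‖ = 1 → ‖v‖ = 1 → ‖u + v‖ = 2 → u = v := by
    intro u v hu hv huv
    by_contra hne
    obtain ⟨δ, hδ, h⟩ := hUC ‖u - v‖ (norm_pos_iff.mpr (sub_ne_zero.mpr hne))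
    have := h u v hu.le hv.le le_rfl
    linarith
  have hUCY : ∀ e g : ℕ → Y, (∀ᶠ n in atTop, ‖e n‖ = 1 ∧ ‖g n‖ = 1) →
      Tendsto (fun n => ‖e n + g n‖) atTop (𝓝 2) →
      Tendsto (fun n => ‖e n - g n‖) atTop (𝓝 0) := by
    intro e g hev hadd
    rw [Metric.tendsto_nhds]
    intro ε hε
    obtain ⟨δ, hδ, h⟩ := hUC ε hε
    filter_upwards [hev, hadd.eventually (eventually_gt_nhds (show 2 - δ < 2 by linarith))]
      with n hn h2
    obtain ⟨a, ha⟩ := hs ⟨e n, by simpa using hn.1⟩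
    obtain ⟨c, hc⟩ := hs ⟨g n, by simpa using hn.2⟩
    have ha' : (f a : Y) = e n := by rw [ha]
    have hc' : (f c : Y) = g n := by rw [hc]
    have h4 : ‖(a : X) + c‖ = ‖e n + g n‖ := by
      have := norm_map_sub hf a (opp c)
      rw [map_opp hstrict hf hs, coe_opp, sub_neg_eq_add, sub_neg_eq_add, ha', hc'] at this
      exact this.symm
    rw [Real.dist_eq, sub_zero, abs_norm, ← ha', ← hc', norm_map_sub hf]
    by_contra hlt
    push Not at hlt
    have := h a c (norm_coe_sphere a).le (norm_coe_sphere c).le hlt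
    linarith
  refine extend_of_dist f hf hs fun z b t ht0 ht1 => ?_
  rcases ht1.lt_or_eq with ht | rfl
  swap
  · rw [one_smul, one_smul, norm_map_sub hf]
  -- an asymptotically orthogonal sequence of asymptotic length `s`
  obtain ⟨R, g₀, hR, hg₀, hsep⟩ := exists_seq_norm_le_one_le_norm_sub (𝕜 := ℝ) hinf
  obtain ⟨φ₀, hφ₀, u₀, A, hA, hu₀⟩ := exists_asympOrth hp hM g₀ R hg₀
  have hApos : 0 < A := by
    rcases hA.lt_or_eq with h | h
    · exact h
    · exfalso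
      subst h
      have h1 : Tendsto (fun n => ‖g₀ (φ₀ n) - u₀‖) atTop (𝓝 0) := hu₀.tendsto_norm hp le_rfl
      obtain ⟨N, hN⟩ := eventually_atTop.mp (h1.eventually
        (eventually_lt_nhds (show (0 : ℝ) < 1 / 2 by norm_num)))
      have h2 : 1 ≤ ‖g₀ (φ₀ N) - g₀ (φ₀ (N + 1))‖ :=
        hsep (fun h => absurd (hφ₀.injective h) (by omega))
      have h3 : ‖g₀ (φ₀ N) - g₀ (φ₀ (N + 1))‖
          ≤ ‖g₀ (φ₀ N) - u₀‖ + ‖g₀ (φ₀ (N + 1)) - u₀‖ := by
        refine le_trans (le_of_eq ?_) (norm_sub_le _ _)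
        congr 1
        abel
      have h4 := hN N le_rfl
      have h5 := hN (N + 1) N.le_succ
      linarith
  have htp : t ^ p < 1 := Real.rpow_lt_one ht0 ht hp
  set s : ℝ := (1 - t ^ p) ^ p⁻¹ with hsdef
  have hs0 : 0 < s := Real.rpow_pos_of_pos (by linarith) _
  have hsp : s ^ p = 1 - t ^ p := by
    rw [hsdef, ← Real.rpow_mul (by linarith), inv_mul_cancel₀ hp.ne', Real.rpow_one]
  set α : ℕ → X := fun n => (s / A) • (g₀ (φ₀ n) - u₀) with hαdef
  have hα : AsympOrth p α s := by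
    intro w
    have h1 := (hu₀ ((A / s) • w)).const_mul ((s / A) ^ p)
    have h2 : (s / A) ^ p * (‖(A / s) • w‖ ^ p + A ^ p) = ‖w‖ ^ p + s ^ p := by
      rw [mul_add, ← Real.mul_rpow (by positivity) (norm_nonneg _),
        ← Real.mul_rpow (by positivity) hA, norm_smul, Real.norm_of_nonneg (by positivity)]
      congr 2 <;> field_simp
    rw [h2] at h1
    refine h1.congr fun n => ?_
    rw [← Real.mul_rpow (by positivity) (norm_nonneg _)]
    congr 1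
    have h3 : s / A * (A / s) = 1 := by field_simp
    rw [show w + α n = (s / A) • ((A / s) • w + (g₀ (φ₀ n) - u₀)) by
      rw [smul_add, smul_smul, h3, one_smul],
      norm_smul, Real.norm_of_nonneg (by positivity)]
  set x : X := t • (z : X) with hx
  have hxp : ‖x‖ ^ p + s ^ p = 1 := by
    rw [hx, norm_smul, norm_coe_sphere, mul_one, Real.norm_of_nonneg ht0, hsp]; ring
  set c₁ : ℕ → sphere (0 : X) 1 := fun n => if h : x + α n = 0 then z else
    ⟨‖x + α n‖⁻¹ • (x + α n), mem_sphere_zero_iff_norm.mpr (norm_smul_inv_norm h)⟩ with hc₁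
  set c₂ : ℕ → sphere (0 : X) 1 := fun n => if h : x - α n = 0 then z else
    ⟨‖x - α n‖⁻¹ • (x - α n), mem_sphere_zero_iff_norm.mpr (norm_smul_inv_norm h)⟩ with hc₂
  have hclose : ∀ (q : ℕ → X) (c : ℕ → sphere (0 : X) 1),
      (∀ n, q n ≠ 0 → (c n : X) = ‖q n‖⁻¹ • q n) → Tendsto (fun n => ‖q n‖) atTop (𝓝 1) →
      Tendsto (fun n => ‖(c n : X) - q n‖) atTop (𝓝 0) := by
    intro q c hc hq
    have h1 : Tendsto (fun n => |1 - ‖q n‖|) atTop (𝓝 0) := by simpa using (hq.const_sub 1).abs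
    refine h1.congr' ?_
    filter_upwards [hq.eventually (eventually_gt_nhds (show (0 : ℝ) < 1 by norm_num))] with n hn
    rw [hc n (norm_pos_iff.mp hn)]
    conv_rhs => rw [show ‖q n‖⁻¹ • q n - q n = (‖q n‖⁻¹ - 1) • q n by rw [sub_smul, one_smul]]
    rw [norm_smul, Real.norm_eq_abs]
    nth_rewrite 3 [← abs_of_pos hn]
    rw [← abs_mul]
    congr 1
    field_simp
  have hq₁ : Tendsto (fun n => ‖x + α n‖) atTop (𝓝 1) := by
    have := tendsto_of_rpow_tendsto hp (fun n => norm_nonneg _) (hα x)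
    rwa [hxp, Real.one_rpow] at this
  have hq₂ : Tendsto (fun n => ‖x - α n‖) atTop (𝓝 1) := by
    have := tendsto_of_rpow_tendsto hp (fun n => norm_nonneg _) (hα.tendsto_sub x)
    rwa [hxp, Real.one_rpow] at this
  have h1 := hclose _ c₁ (fun n hn => by simp only [hc₁, dif_neg hn]) hq₁
  have h2 := hclose _ c₂ (fun n hn => by simp only [hc₂, dif_neg hn]) hq₂
  -- successive subsequences for `b`, `z` and `-z`
  obtain ⟨φ, hφ, hb⟩ := midpoint_dist hp hUC hstrict hM hf hs hs0 hα h1 h2 b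
  obtain ⟨ψ, hψ, hz⟩ := midpoint_dist hp hUC hstrict hM hf hs hs0 (hα.comp hφ)
    (c₁ := c₁ ∘ φ) (c₂ := c₂ ∘ φ) (x := x) (h1.comp hφ.tendsto_atTop)
    (h2.comp hφ.tendsto_atTop) z
  obtain ⟨χ, hχ, hz'⟩ := midpoint_dist hp hUC hstrict hM hf hs hs0 ((hα.comp hφ).comp hψ)
    (c₁ := (c₁ ∘ φ) ∘ ψ) (c₂ := (c₂ ∘ φ) ∘ ψ) (x := x)
    ((h1.comp hφ.tendsto_atTop).comp hψ.tendsto_atTop)
    ((h2.comp hφ.tendsto_atTop).comp hψ.tendsto_atTop) (opp z)
  set η : ℕ → Y := fun n =>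
    (2 : ℝ)⁻¹ • ((f (c₁ (φ (ψ (χ n)))) : Y) + f (c₂ (φ (ψ (χ n))))) with hη
  have hb' : Tendsto (fun n => ‖(f b : Y) - η n‖) atTop (𝓝 ‖x - b‖) :=
    hb.comp (hψ.comp hχ).tendsto_atTop
  have hz₁ : Tendsto (fun n => ‖(f z : Y) - η n‖) atTop (𝓝 ‖x - z‖) :=
    hz.comp hχ.tendsto_atTop
  have hz₂ : Tendsto (fun n => ‖(f z : Y) + η n‖) atTop (𝓝 ‖x + z‖) := by
    have : Tendsto (fun n => ‖(f (opp z) : Y) - η n‖) atTop (𝓝 ‖x - (opp z : X)‖) := hz'
    rw [map_opp hstrict hf hs, coe_opp, sub_neg_eq_add] at this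
    refine this.congr fun n => ?_
    rw [← norm_neg ((f z : Y) + η n), neg_add']
  have e1 : ‖x - z‖ = 1 - t := by
    rw [hx, show t • (z : X) - z = -((1 - t) • (z : X)) by module, norm_neg, norm_smul,
      norm_coe_sphere, mul_one, Real.norm_of_nonneg (by linarith)]
  have e2 : ‖x + z‖ = 1 + t := by
    rw [hx, show t • (z : X) + z = (1 + t) • (z : X) by module, norm_smul,
      norm_coe_sphere, mul_one, Real.norm_of_nonneg (by linarith)]
  have hlim : Tendsto η atTop (𝓝 (t • (f z : Y))) := by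
    refine tendsto_of_two_dist hUCY (norm_coe_sphere _) ht0 ht (fun δ hδ => ?_) (fun δ hδ => ?_)
    · rw [e1] at hz₁
      exact hz₁.eventually (eventually_le_nhds (by linarith))
    · rw [e2] at hz₂
      exact hz₂.eventually (eventually_le_nhds (by linarith))
  rw [norm_sub_rev (t • (f z : Y))]
  exact tendsto_nhds_unique ((hlim.const_sub _).norm) hb'

end Vale.Agent.P084.Asymp
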