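import Vale.Agent.P084.Asymp.Extend

/-!
# P084: the twin of the Clarkson theorem for exponents below two

A uniformly convex space with the reverse Clarkson inequality and almost p-orthogonal unit vectors
(from below) has the Mazur-Ulam property: midpoints of images of almost orthogonal pairs now give
lower bounds for distances, and a ray in the target turns them into equalities.
-/

open Metric Filter Topology

namespace Vale.Agent.P084.Asymp

variable {X : Type*} [NormedAddCommGroup X] [NormedSpace ℝ X]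
variable {Y : Type*} [NormedAddCommGroup Y] [NormedSpace ℝ Y]

theorem pair_lower {p : ℝ} (hp : 0 < p)
    (hstrict : ∀ u v : X, ‖u‖ = 1 → ‖v‖ = 1 → ‖u + v‖ = 2 → u = v)
    (hR : ∀ u v : X, ‖u + v‖ ^ p + ‖u - v‖ ^ p ≤ 2 * (‖u‖ ^ p + ‖v‖ ^ p))
    {f : sphere (0 : X) 1 → sphere (0 : Y) 1} (hf : Isometry f) (hs : Function.Surjective f)
    (A B : Y) (h : ‖A‖ = ‖B‖) :
    (2 * ‖A‖) ^ p ≤ ‖A + B‖ ^ p + ‖A - B‖ ^ p := by
  rcases eq_or_ne ‖A‖ 0 with h0 | h0
  · have hA : A = 0 := norm_eq_zero.mp h0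
    have hB : B = 0 := norm_eq_zero.mp (h ▸ h0)
    simp [hA, hB, Real.zero_rpow hp.ne']
  have hd : 0 < ‖A‖ := lt_of_le_of_ne (norm_nonneg A) (Ne.symm h0)
  obtain ⟨a, ha⟩ := hs ⟨‖A‖⁻¹ • A, by
    simp [norm_smul, h0]⟩
  obtain ⟨c, hc⟩ := hs ⟨‖A‖⁻¹ • B, by
    rw [mem_sphere_zero_iff_norm, norm_smul, Real.norm_of_nonneg (by positivity), ← h,
      inv_mul_cancel₀ h0]⟩
  have ha' : (f a : Y) = ‖A‖⁻¹ • A := by rw [ha]
  have hc' : (f c : Y) = ‖A‖⁻¹ • B := by rw [hc]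
  have h1 : ‖(a : X) - c‖ = ‖A‖⁻¹ * ‖A - B‖ := by
    rw [← norm_map_sub hf, ha', hc', ← smul_sub, norm_smul,
      Real.norm_of_nonneg (by positivity)]
  have h2 : ‖(a : X) + c‖ = ‖A‖⁻¹ * ‖A + B‖ := by
    have := norm_map_sub hf a (opp c)
    rw [map_opp hstrict hf hs, coe_opp, sub_neg_eq_add, sub_neg_eq_add, ha', hc', ← smul_add,
      norm_smul, Real.norm_of_nonneg (by positivity)] at this
    exact this.symm
  have h3 := hR ((a : X) + c) ((a : X) - c)
  rw [show (a : X) + c + (a - c) = (2 : ℝ) • (a : X) by module,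
    show (a : X) + c - (a - c) = (2 : ℝ) • (c : X) by module, norm_smul, norm_smul,
    Real.norm_two, norm_coe_sphere, norm_coe_sphere, mul_one, h1, h2,
    Real.mul_rpow (by positivity) (norm_nonneg _), Real.mul_rpow (by positivity) (norm_nonneg _),
    Real.inv_rpow hd.le, ← mul_add] at h3
  have hdp : 0 < ‖A‖ ^ p := Real.rpow_pos_of_pos hd p
  have h4 : (2 : ℝ) ^ p ≤ (‖A‖ ^ p)⁻¹ * (‖A + B‖ ^ p + ‖A - B‖ ^ p) := by linarith
  rw [le_inv_mul_iff₀ hdp] at h4
  rw [Real.mul_rpow two_pos.le hd.le]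
  linarith [mul_comm (‖A‖ ^ p) ((2 : ℝ) ^ p)]

theorem eventually_half_add_ge {p : ℝ} (hp : 0 < p)
    (hY : ∀ A B : Y, ‖A‖ = ‖B‖ → (2 * ‖A‖) ^ p ≤ ‖A + B‖ ^ p + ‖A - B‖ ^ p)
    {A B : ℕ → Y} {r s D : ℝ} (hr : 0 ≤ r) (hs : 0 < s) (hD : 0 ≤ D)
    (hDp : D ^ p = r ^ p + s ^ p)
    (hA : Tendsto (fun n => ‖A n‖) atTop (𝓝 D)) (hB : Tendsto (fun n => ‖B n‖) atTop (𝓝 D))
    (hAB : Tendsto (fun n => ‖A n - B n‖) atTop (𝓝 (2 * s)))
    {δ : ℝ} (hδ : 0 < δ) :
    ∀ᶠ n in atTop, 2 * r - δ ≤ ‖A n + B n‖ := by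
  rcases le_or_gt (2 * r - δ) 0 with hsmall | hbig
  · exact Eventually.of_forall fun n => hsmall.trans (norm_nonneg _)
  have hD0 : 0 < D := by
    rcases hD.lt_or_eq with h | h
    · exact h
    · exfalso
      rw [← h, Real.zero_rpow hp.ne'] at hDp
      have := Real.rpow_pos_of_pos hs p
      have := Real.rpow_nonneg hr p
      linarith
  set C : ℕ → Y := fun n => (‖A n‖ / ‖B n‖) • B n with hC
  have hBpos : ∀ᶠ n in atTop, 0 < ‖B n‖ := hB.eventually (eventually_gt_nhds hD0)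
  have hCnorm : ∀ᶠ n in atTop, ‖A n‖ = ‖C n‖ := by
    filter_upwards [hBpos] with n hn
    simp only [hC]
    rw [norm_smul, Real.norm_of_nonneg (by positivity), div_mul_cancel₀ _ hn.ne']
  have hCB : Tendsto (fun n => ‖C n - B n‖) atTop (𝓝 0) := by
    have h1 : Tendsto (fun n => |‖A n‖ - ‖B n‖|) atTop (𝓝 0) := by
      simpa using (hA.sub hB).abs
    refine h1.congr' ?_
    filter_upwards [hBpos] with n hn
    simp only [hC]
    conv_rhs =>
      rw [show (‖A n‖ / ‖B n‖) • B n - B n = ((‖A n‖ - ‖B n‖) / ‖B n‖) • B n by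
        rw [sub_div, sub_smul, div_self hn.ne', one_smul]]
    rw [norm_smul, Real.norm_eq_abs, abs_div, abs_of_pos hn, div_mul_cancel₀ _ hn.ne']
  have hAC : Tendsto (fun n => ‖A n - C n‖) atTop (𝓝 (2 * s)) := by
    refine tendsto_norm_of_close ?_ hAB
    simpa [norm_sub_rev] using hCB
  have hR : Tendsto (fun n => (2 * ‖A n‖) ^ p - ‖A n - C n‖ ^ p) atTop (𝓝 ((2 * r) ^ p)) := by
    have h1 := ((hA.const_mul 2).rpow_const (p := p) (Or.inr hp.le)).sub
      (hAC.rpow_const (p := p) (Or.inr hp.le))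
    convert h1 using 2
    rw [Real.mul_rpow two_pos.le hr, Real.mul_rpow two_pos.le hD,
      Real.mul_rpow two_pos.le hs.le, hDp]
    ring
  have hlt : (2 * r - δ / 2) ^ p < (2 * r) ^ p :=
    Real.rpow_lt_rpow (by linarith) (by linarith) hp
  filter_upwards [hR.eventually (eventually_gt_nhds hlt), hCnorm,
    hCB.eventually (eventually_lt_nhds (half_pos hδ))] with n h1 h2 h3
  have h4 := hY (A n) (C n) h2
  have h5 : (2 * r - δ / 2) ^ p < ‖A n + C n‖ ^ p := by linarith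
  have h6 : 2 * r - δ / 2 < ‖A n + C n‖ :=
    (Real.rpow_lt_rpow_iff (by linarith) (norm_nonneg _) hp).mp h5
  have h7 : ‖A n + C n‖ ≤ ‖A n + B n‖ + ‖C n - B n‖ := by
    have := norm_add_le (A n + B n) (C n - B n)
    rwa [show A n + B n + (C n - B n) = A n + C n by abel] at this
  linarith

theorem tendsto_of_norm_and_dist
    (hUC : ∀ e g : ℕ → Y, (∀ᶠ n in atTop, ‖e n‖ = 1 ∧ ‖g n‖ = 1) →
      Tendsto (fun n => ‖e n + g n‖) atTop (𝓝 2) → Tendsto (fun n => ‖e n - g n‖) atTop (𝓝 0))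
    {w : Y} (hw : ‖w‖ = 1) {t : ℝ} (ht0 : 0 ≤ t) (ht1 : t < 1) {η : ℕ → Y}
    (hn : Tendsto (fun n => ‖η n‖) atTop (𝓝 t))
    (h2 : ∀ δ : ℝ, 0 < δ → ∀ᶠ n in atTop, 1 + t - δ ≤ ‖w + η n‖) :
    Tendsto η atTop (𝓝 (t • w)) := by
  rcases ht0.lt_or_eq with ht | rfl
  swap
  · rw [zero_smul]
    exact tendsto_zero_iff_norm_tendsto_zero.mpr hn
  set g : ℕ → Y := fun n => ‖η n‖⁻¹ • η n with hg
  have hpos : ∀ᶠ n in atTop, 0 < ‖η n‖ := hn.eventually (eventually_gt_nhds ht)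
  have hgn : ∀ᶠ n in atTop, ‖g n‖ = 1 ∧ ‖w‖ = 1 := by
    filter_upwards [hpos] with n hn'
    simp only [hg]
    rw [norm_smul, Real.norm_of_nonneg (by positivity), inv_mul_cancel₀ hn'.ne']
    exact ⟨rfl, hw⟩
  have hgη : Tendsto (fun n => ‖η n - t • g n‖) atTop (𝓝 0) := by
    have h3 : Tendsto (fun n => |‖η n‖ - t|) atTop (𝓝 0) := by
      simpa using (hn.sub_const t).abs
    refine h3.congr' ?_
    filter_upwards [hpos, hgn] with n hn' hg'
    have h4 : η n = ‖η n‖ • g n := by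
      simp only [hg]; rw [smul_smul, mul_inv_cancel₀ hn'.ne', one_smul]
    conv_rhs => rw [show η n - t • g n = ‖η n‖ • g n - t • g n by rw [← h4]]
    rw [← sub_smul, norm_smul, hg'.1, mul_one, Real.norm_eq_abs]
  have hadd : Tendsto (fun n => ‖g n + w‖) atTop (𝓝 2) := by
    rw [Metric.tendsto_nhds]
    intro ε hε
    filter_upwards [h2 (t * ε / 4) (by positivity), hgn,
      hgη.eventually (eventually_lt_nhds (show (0 : ℝ) < t * ε / 4 by positivity))]
      with n a1 a2 a3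
    have a4 : ‖w + η n‖ ≤ t * ‖g n + w‖ + (1 - t) + ‖η n - t • g n‖ := by
      have := norm_add₃_le (a := t • (g n + w)) (b := (1 - t) • w) (c := η n - t • g n)
      rw [norm_smul, norm_smul, hw, mul_one, Real.norm_of_nonneg ht0,
        Real.norm_of_nonneg (show 0 ≤ 1 - t by linarith)] at this
      refine le_trans (le_of_eq ?_) this
      congr 1
      module
    have a5 : ‖g n + w‖ ≤ 2 := (norm_add_le _ _).trans (by rw [a2.1, hw]; norm_num)
    rw [Real.dist_eq, abs_lt]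
    constructor
    · by_contra hc
      push Not at hc
      have : t * ‖g n + w‖ ≤ t * (2 - ε) := mul_le_mul_of_nonneg_left (by linarith) ht0
      nlinarith
    · linarith
  have hsub := hUC g (fun _ => w) hgn hadd
  rw [tendsto_iff_norm_sub_tendsto_zero]
  refine squeeze_zero (fun n => norm_nonneg _) (fun n => ?_)
    (by simpa using hgη.add (hsub.const_mul t))
  calc ‖η n - t • w‖ = ‖(η n - t • g n) + t • (g n - w)‖ := by congr 1; module
    _ ≤ _ := (norm_add_le _ _).trans (by rw [norm_smul, Real.norm_of_nonneg ht0])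

theorem le_norm_map_smul_sub {p : ℝ} (hp : 0 < p)
    (hstrict : ∀ u v : X, ‖u‖ = 1 → ‖v‖ = 1 → ‖u + v‖ = 2 → u = v)
    (hUC : ∀ e g : ℕ → Y, (∀ᶠ n in atTop, ‖e n‖ = 1 ∧ ‖g n‖ = 1) →
      Tendsto (fun n => ‖e n + g n‖) atTop (𝓝 2) → Tendsto (fun n => ‖e n - g n‖) atTop (𝓝 0))
    (hR : ∀ u v : X, ‖u + v‖ ^ p + ‖u - v‖ ^ p ≤ 2 * (‖u‖ ^ p + ‖v‖ ^ p))
    (hA : ∀ (S : Finset X) (ε : ℝ), 0 < ε → ∃ y : X, ‖y‖ = 1 ∧
      ∀ v ∈ S, ∀ t : ℝ, 0 ≤ t → t ≤ 1 →
        ‖v‖ ^ p + t ^ p - ε ≤ ‖v + t • y‖ ^ p ∧ ‖v‖ ^ p + t ^ p - ε ≤ ‖v - t • y‖ ^ p)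
    {f : sphere (0 : X) 1 → sphere (0 : Y) 1} (hf : Isometry f) (hs : Function.Surjective f)
    (z b : sphere (0 : X) 1) {t : ℝ} (ht0 : 0 ≤ t) (ht1 : t < 1) :
    ‖t • (z : X) - b‖ ≤ ‖t • (f z : Y) - f b‖ := by
  classical
  have hY := pair_lower hp hstrict hR hf hs
  have htp : t ^ p < 1 := Real.rpow_lt_one ht0 ht1 hp
  set s : ℝ := (1 - t ^ p) ^ p⁻¹ with hsdef
  have hs0 : 0 < s := Real.rpow_pos_of_pos (by linarith) _
  have hs1 : s ≤ 1 := Real.rpow_le_one (by linarith)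
    (by linarith [Real.rpow_nonneg ht0 p]) (inv_nonneg.mpr hp.le)
  have hsp : s ^ p = 1 - t ^ p := by
    rw [hsdef, ← Real.rpow_mul (by linarith), inv_mul_cancel₀ hp.ne', Real.rpow_one]
  set x : X := t • (z : X) with hx
  have hxn : ‖x‖ = t := by
    rw [hx, norm_smul, norm_coe_sphere, mul_one, Real.norm_of_nonneg ht0]
  have hε : ∀ n : ℕ, (0 : ℝ) < 1 / ((n : ℝ) + 2) := fun n => by positivity
  choose y hy1 hy2 using fun n : ℕ =>
    hA {x, x - (b : X), x - (z : X), x + (z : X)} (1 / ((n : ℝ) + 2)) (hε n)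
  have hεlim : Tendsto (fun n : ℕ => 1 / ((n : ℝ) + 2)) atTop (𝓝 0) := by
    have h1 := (tendsto_one_div_add_atTop_nhds_zero_nat (𝕜 := ℝ)).comp
      (tendsto_add_atTop_nat 1)
    refine h1.congr fun n => ?_
    simp only [Function.comp]
    push_cast
    ring
  -- two sided control of the norms along the almost orthogonal direction
  have key : ∀ v ∈ ({x, x - (b : X), x - (z : X), x + (z : X)} : Finset X), ∀ n,
      |‖v + s • y n‖ ^ p - (‖v‖ ^ p + s ^ p)| ≤ 1 / ((n : ℝ) + 2) ∧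
      |‖v - s • y n‖ ^ p - (‖v‖ ^ p + s ^ p)| ≤ 1 / ((n : ℝ) + 2) := by
    intro v hv n
    obtain ⟨h1, h2⟩ := hy2 n v hv s hs0.le hs1
    have h3 := hR v (s • y n)
    rw [norm_smul, Real.norm_of_nonneg hs0.le, hy1 n, mul_one] at h3
    constructor <;> rw [abs_le] <;> constructor <;> linarith
  have lim : ∀ v ∈ ({x, x - (b : X), x - (z : X), x + (z : X)} : Finset X),
      Tendsto (fun n => ‖v + s • y n‖) atTop (𝓝 ((‖v‖ ^ p + s ^ p) ^ p⁻¹)) ∧
      Tendsto (fun n => ‖v - s • y n‖) atTop (𝓝 ((‖v‖ ^ p + s ^ p) ^ p⁻¹)) := by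
    intro v hv
    constructor
    · refine tendsto_of_rpow_tendsto hp (fun n => norm_nonneg _) ?_
      exact tendsto_iff_norm_sub_tendsto_zero.mpr
        (squeeze_zero (fun n => norm_nonneg _)
          (fun n => by rw [Real.norm_eq_abs]; exact (key v hv n).1) hεlim)
    · refine tendsto_of_rpow_tendsto hp (fun n => norm_nonneg _) ?_
      exact tendsto_iff_norm_sub_tendsto_zero.mpr
        (squeeze_zero (fun n => norm_nonneg _)
          (fun n => by rw [Real.norm_eq_abs]; exact (key v hv n).2) hεlim)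
  have hxmem : x ∈ ({x, x - (b : X), x - (z : X), x + (z : X)} : Finset X) := by simp
  have hxp : ‖x‖ ^ p + s ^ p = 1 := by rw [hxn, hsp]; ring
  set g : ℕ → X := fun n => x + s • y n with hg
  set h : ℕ → X := fun n => x - s • y n with hh
  have hsmall : ∀ n : ℕ, 1 / ((n : ℝ) + 2) < 1 := fun n => by
    rw [div_lt_one (by positivity)]
    linarith [n.cast_nonneg (α := ℝ)]
  have hgne : ∀ n, g n ≠ 0 ∧ h n ≠ 0 := by
    intro n
    obtain ⟨k1, k2⟩ := key x hxmem n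
    rw [hxp, abs_le] at k1 k2
    constructor <;> intro h0 <;> simp only [hg, hh] at h0
    · rw [h0, norm_zero, Real.zero_rpow hp.ne'] at k1
      linarith [hsmall n]
    · rw [h0, norm_zero, Real.zero_rpow hp.ne'] at k2
      linarith [hsmall n]
  have hgn : Tendsto (fun n => ‖g n‖) atTop (𝓝 1) ∧ Tendsto (fun n => ‖h n‖) atTop (𝓝 1) := by
    have := lim x hxmem
    rwa [hxp, Real.one_rpow] at this
  set c₁ : ℕ → sphere (0 : X) 1 := fun n => ⟨‖g n‖⁻¹ • g n, by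
    simp [norm_smul, (hgne n).1]⟩ with hc₁
  set c₂ : ℕ → sphere (0 : X) 1 := fun n => ⟨‖h n‖⁻¹ • h n, by
    simp [norm_smul, (hgne n).2]⟩ with hc₂
  have hclose : ∀ (q : ℕ → X), (∀ n, q n ≠ 0) → Tendsto (fun n => ‖q n‖) atTop (𝓝 1) →
      Tendsto (fun n => ‖‖q n‖⁻¹ • q n - q n‖) atTop (𝓝 0) := by
    intro q hq hq1
    have h1 : Tendsto (fun n => |1 - ‖q n‖|) atTop (𝓝 0) := by
      simpa using (hq1.const_sub 1).abs
    refine h1.congr fun n => ?_
    have hpos : 0 < ‖q n‖ := norm_pos_iff.mpr (hq n)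
    conv_rhs => rw [show ‖q n‖⁻¹ • q n - q n = (‖q n‖⁻¹ - 1) • q n by
      rw [sub_smul, one_smul]]
    rw [norm_smul, Real.norm_eq_abs]
    nth_rewrite 3 [← abs_of_pos hpos]
    rw [← abs_mul]
    congr 1
    field_simp
  have hc1 := hclose g (fun n => (hgne n).1) hgn.1
  have hc2 := hclose h (fun n => (hgne n).2) hgn.2
  have h12 : Tendsto (fun n => ‖(c₁ n : X) - c₂ n‖) atTop (𝓝 (2 * s)) := by
    refine tendsto_norm_of_close (b := fun n => g n - h n) ?_ ?_
    · refine squeeze_zero (fun n => norm_nonneg _) (fun n => ?_) (by simpa using hc1.add hc2)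
      refine le_trans (le_of_eq ?_) (norm_sub_le _ _)
      simp only [hc₁, hc₂]
      congr 1
      abel
    · refine tendsto_const_nhds.congr fun n => ?_
      simp only [hg, hh]
      rw [show x + s • y n - (x - s • y n) = (2 * s) • y n by module, norm_smul, hy1 n, mul_one,
        Real.norm_of_nonneg (by positivity)]
  have h12' : Tendsto (fun n => ‖(c₁ n : X) + c₂ n‖) atTop (𝓝 (2 * t)) := by
    refine tendsto_norm_of_close (b := fun n => g n + h n) ?_ ?_
    · refine squeeze_zero (fun n => norm_nonneg _) (fun n => ?_) (by simpa using hc1.add hc2)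
      refine le_trans (le_of_eq ?_) (norm_add_le _ _)
      simp only [hc₁, hc₂]
      congr 1
      abel
    · refine tendsto_const_nhds.congr fun n => ?_
      simp only [hg, hh]
      rw [show x + s • y n + (x - s • y n) = (2 : ℝ) • x by module, norm_smul, hxn,
        Real.norm_two]
  set η : ℕ → Y := fun n => (2 : ℝ)⁻¹ • ((f (c₁ n) : Y) + f (c₂ n)) with hη
  have hηn : Tendsto (fun n => ‖η n‖) atTop (𝓝 t) := by
    have h1 := h12'.const_mul (2 : ℝ)⁻¹
    rw [← mul_assoc, inv_mul_cancel₀ two_ne_zero, one_mul] at h1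
    refine h1.congr fun n => ?_
    have h2 := norm_map_sub hf (c₁ n) (opp (c₂ n))
    rw [map_opp hstrict hf hs, coe_opp, sub_neg_eq_add, sub_neg_eq_add] at h2
    simp only [hη]
    rw [norm_smul, h2, Real.norm_of_nonneg (by positivity)]
  have bound : ∀ β : sphere (0 : X) 1,
      x - (β : X) ∈ ({x, x - (b : X), x - (z : X), x + (z : X)} : Finset X) →
      ∀ δ : ℝ, 0 < δ → ∀ᶠ n in atTop, ‖x - β‖ - δ ≤ ‖(f β : Y) - η n‖ := by
    intro β hβ δ hδ
    set D : ℝ := (‖x - (β : X)‖ ^ p + s ^ p) ^ p⁻¹ with hD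
    have hsum0 : 0 ≤ ‖x - (β : X)‖ ^ p + s ^ p :=
      add_nonneg (Real.rpow_nonneg (norm_nonneg _) _) (Real.rpow_nonneg hs0.le _)
    have hD0 : 0 ≤ D := Real.rpow_nonneg hsum0 _
    have hDp : D ^ p = ‖x - (β : X)‖ ^ p + s ^ p := by
      rw [hD, ← Real.rpow_mul hsum0, inv_mul_cancel₀ hp.ne', Real.rpow_one]
    obtain ⟨l1, l2⟩ := lim _ hβ
    have hA' : Tendsto (fun n => ‖(f β : Y) - f (c₁ n)‖) atTop (𝓝 D) := by
      refine (tendsto_norm_of_close (a := fun n => (c₁ n : X) - β)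
        (b := fun n => x - β + s • y n) ?_ l1).congr fun n => ?_
      · refine hc1.congr fun n => ?_
        simp only [hc₁, hg]
        congr 1
        abel
      · rw [norm_map_sub hf, norm_sub_rev]
    have hB' : Tendsto (fun n => ‖(f β : Y) - f (c₂ n)‖) atTop (𝓝 D) := by
      refine (tendsto_norm_of_close (a := fun n => (c₂ n : X) - β)
        (b := fun n => x - β - s • y n) ?_ l2).congr fun n => ?_
      · refine hc2.congr fun n => ?_
        simp only [hc₂, hh]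
        congr 1
        abel
      · rw [norm_map_sub hf, norm_sub_rev]
    have hAB : Tendsto (fun n => ‖((f β : Y) - f (c₁ n)) - ((f β : Y) - f (c₂ n))‖) atTop
        (𝓝 (2 * s)) := by
      refine h12.congr fun n => ?_
      rw [sub_sub_sub_cancel_left, norm_map_sub hf, norm_sub_rev]
    filter_upwards [eventually_half_add_ge hp hY (norm_nonneg _) hs0 hD0 hDp hA' hB' hAB
      (mul_pos two_pos hδ)] with n hn
    have h1 : (f β : Y) - η n =
        (2 : ℝ)⁻¹ • (((f β : Y) - f (c₁ n)) + ((f β : Y) - f (c₂ n))) := by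
      simp only [hη]; module
    rw [h1, norm_smul, Real.norm_of_nonneg (by positivity)]
    linarith
  have hlim : Tendsto η atTop (𝓝 (t • (f z : Y))) := by
    refine tendsto_of_norm_and_dist hUC (norm_coe_sphere _) ht0 ht1 hηn (fun δ hδ => ?_)
    filter_upwards [bound (opp z) (by simp [coe_opp]) δ hδ] with n hn
    rw [map_opp hstrict hf hs, coe_opp, hx,
      show t • (z : X) - -(z : X) = (1 + t) • (z : X) by module, norm_smul,
      norm_coe_sphere, mul_one, Real.norm_of_nonneg (by linarith),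
      show -(f z : Y) - η n = -((f z : Y) + η n) by abel, norm_neg] at hn
    exact hn
  have hlim' : Tendsto (fun n => ‖(f b : Y) - η n‖) atTop (𝓝 ‖t • (f z : Y) - f b‖) := by
    rw [norm_sub_rev (t • (f z : Y))]
    exact (hlim.const_sub _).norm
  refine le_of_forall_pos_le_add fun δ hδ => ?_
  have := ge_of_tendsto hlim' (bound b (by simp) δ hδ)
  linarith

/-- The twin theorem for exponents below two. -/
theorem extend_reverse {p : ℝ} (hp : 0 < p)
    (hUC : ∀ ε : ℝ, 0 < ε → ∃ δ : ℝ, 0 < δ ∧ ∀ x y : X, ‖x‖ ≤ 1 → ‖y‖ ≤ 1 → ε ≤ ‖x - y‖ →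
      ‖x + y‖ ≤ 2 - δ)
    (hR : ∀ u v : X, ‖u + v‖ ^ p + ‖u - v‖ ^ p ≤ 2 * (‖u‖ ^ p + ‖v‖ ^ p))
    (hA : ∀ (S : Finset X) (ε : ℝ), 0 < ε → ∃ y : X, ‖y‖ = 1 ∧
      ∀ v ∈ S, ∀ t : ℝ, 0 ≤ t → t ≤ 1 →
        ‖v‖ ^ p + t ^ p - ε ≤ ‖v + t • y‖ ^ p ∧ ‖v‖ ^ p + t ^ p - ε ≤ ‖v - t • y‖ ^ p)
    (f : sphere (0 : X) 1 → sphere (0 : Y) 1) (hf : Isometry f) (hs : Function.Surjective f) :
    ∃ T : X ≃ₗᵢ[ℝ] Y, ∀ x : sphere (0 : X) 1, T x = f x := by
  have hstrict : ∀ u v : X, ‖u‖ = 1 → ‖v‖ = 1 → ‖u + v‖ = 2 → u = v := by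
    intro u v hu hv huv
    by_contra hne
    obtain ⟨δ, hδ, h⟩ := hUC ‖u - v‖ (norm_pos_iff.mpr (sub_ne_zero.mpr hne))
    have := h u v hu.le hv.le le_rfl
    linarith
  have hUCY : ∀ e g : ℕ → Y, (∀ᶠ n in atTop, ‖e n‖ = 1 ∧ ‖g n‖ = 1) →
      Tendsto (fun n => ‖e n + g n‖) atTop (𝓝 2) →
      Tendsto (fun n => ‖e n - g n‖) atTop (𝓝 0) := by
    intro e g hev hadd
    rw [Metric.tendsto_nhds]
    intro ε hε
    obtain ⟨δ, hδ, h⟩ := hUC ε hε
    filter_upwards [hev, hadd.eventually (eventually_gt_nhds (show 2 - δ < 2 by linarith))]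
      with n hn h2
    obtain ⟨a, ha⟩ := hs ⟨e n, by simpa using hn.1⟩
    obtain ⟨c, hc⟩ := hs ⟨g n, by simpa using hn.2⟩
    have ha' : (f a : Y) = e n := by rw [ha]
    have hc' : (f c : Y) = g n := by rw [hc]
    have h4 : ‖(a : X) + c‖ = ‖e n + g n‖ := by
      have := norm_map_sub hf a (opp c)
      rw [map_opp hstrict hf hs, coe_opp, sub_neg_eq_add, sub_neg_eq_add, ha', hc'] at this
      exact this.symm
    rw [Real.dist_eq, sub_zero, abs_norm, ← ha', ← hc', norm_map_sub hf]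
    by_contra hlt
    push Not at hlt
    have := h a c (norm_coe_sphere a).le (norm_coe_sphere c).le hlt
    linarith
  refine extend_of_dist f hf hs fun z b t ht0 ht1 => ?_
  rcases ht1.lt_or_eq with ht | rfl
  swap
  · rw [one_smul, one_smul, norm_map_sub hf]
  -- a ray in the target from `f b` through `t • f z` leaves the ball at some `f c`
  set x : Y := t • (f z : Y) with hx
  have hxn : ‖x‖ = t := by
    rw [hx, norm_smul, norm_coe_sphere, mul_one, Real.norm_of_nonneg ht0]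
  have hd : 0 < ‖x - f b‖ := by
    rw [norm_pos_iff, sub_ne_zero]
    intro h
    rw [h, norm_coe_sphere] at hxn
    linarith
  set D : ℝ → Y := fun l => (f b : Y) + l • (x - f b) with hD
  set L : ℝ := 2 / ‖x - f b‖ + 1 with hL
  have hL1 : 1 ≤ L := by
    have : 0 ≤ 2 / ‖x - (f b : Y)‖ := by positivity
    linarith
  have hcont : ContinuousOn (fun l => ‖D l‖) (Set.Icc 1 L) := by
    apply Continuous.continuousOn
    simp only [hD]
    fun_prop
  have h1 : ‖D 1‖ ≤ 1 := by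
    simp only [hD, one_smul, add_sub_cancel]
    linarith
  have h2 : 1 ≤ ‖D L‖ := by
    have h3 : ‖L • (x - (f b : Y))‖ = 2 + ‖x - f b‖ := by
      rw [norm_smul, Real.norm_of_nonneg (by linarith), hL]
      field_simp
    have h4 : ‖L • (x - (f b : Y))‖ ≤ ‖D L‖ + ‖(f b : Y)‖ := by
      refine le_trans (le_of_eq ?_) (norm_sub_le _ _)
      simp [hD]
    rw [norm_coe_sphere] at h4
    linarith
  obtain ⟨l, ⟨hl1, -⟩, hl⟩ := intermediate_value_Icc hL1 hcont ⟨h1, h2⟩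
  obtain ⟨c, hc⟩ := hs ⟨D l, by simpa using hl⟩
  have hc' : (f c : Y) = (f b : Y) + l • (x - f b) := by rw [hc]
  have e1 : ‖(f c : Y) - f b‖ = l * ‖x - f b‖ := by
    rw [hc', add_sub_cancel_left, norm_smul, Real.norm_of_nonneg (by linarith)]
  have e2 : ‖x - f c‖ = (l - 1) * ‖x - f b‖ := by
    rw [hc', show x - ((f b : Y) + l • (x - f b)) = -((l - 1) • (x - f b)) by module, norm_neg,
      norm_smul, Real.norm_of_nonneg (by linarith)]
  have u1 := le_norm_map_smul_sub hp hstrict hUCY hR hA hf hs z b ht0 ht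
  have u2 := le_norm_map_smul_sub hp hstrict hUCY hR hA hf hs z c ht0 ht
  rw [← hx] at u1 u2
  have u3 : ‖(c : X) - b‖ ≤ ‖t • (z : X) - c‖ + ‖t • (z : X) - b‖ := by
    rw [norm_sub_rev _ (c : X)]
    exact norm_sub_le_norm_sub_add_norm_sub _ _ _
  rw [norm_map_sub hf] at e1
  linarith

end Vale.Agent.P084.Asymp
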